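import Mathlib

/-!
P050: averages over maps `V → I`, edge products of a symmetric kernel, and the two facts used
everywhere: edge sets on disjoint vertices are independent, and coordinates can be resampled.
-/

namespace P050

open Finset

variable {V I : Type} [Fintype V] [DecidableEq V] [Fintype I]

/-- The average over all maps `V → I`. -/
noncomputable def av (F : (V → I) → ℝ) : ℝ := (∑ f, F f) / (Fintype.card I : ℝ) ^ Fintype.card V

/-- Two edges share a vertex. -/
def Touch (a b : Sym2 V) : Prop := ∃ v, v ∈ a ∧ v ∈ b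

/-- `a` shares a vertex with an edge of `γ`. -/
def Tch (γ : Finset (Sym2 V)) (a : Sym2 V) : Prop := ∃ b ∈ γ, Touch a b

/-- The value of a kernel on an edge. -/
def ev (W : I → I → ℝ) (hW : ∀ i j, W i j = W j i) (f : V → I) : Sym2 V → ℝ :=
  Sym2.lift ⟨fun u v => W (f u) (f v), fun u v => hW (f u) (f v)⟩

@[simp] theorem ev_mk (W : I → I → ℝ) (hW : ∀ i j, W i j = W j i) (f : V → I) (u v : V) :
    ev W hW f s(u, v) = W (f u) (f v) := rfl

theorem ev_congr (W : I → I → ℝ) (hW : ∀ i j, W i j = W j i) {f g : V → I} {e : Sym2 V}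
    (h : ∀ v ∈ e, f v = g v) : ev W hW f e = ev W hW g e := by
  induction e using Sym2.ind with
  | h u v => simp [h u (by simp), h v (by simp)]

theorem abs_ev_le {W : I → I → ℝ} {hW : ∀ i j, W i j = W j i} {δ : ℝ} (h : ∀ i j, |W i j| ≤ δ)
    (f : V → I) (e : Sym2 V) : |ev W hW f e| ≤ δ := by
  induction e using Sym2.ind with
  | h u v => exact h _ _

variable [Nonempty I]

theorem card_pos' : (0 : ℝ) < (Fintype.card I : ℝ) ^ Fintype.card V := by
  have : 0 < Fintype.card I := Fintype.card_pos
  positivity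

theorem av_const (c : ℝ) : av (fun _ : V → I => c) = c := by
  have := card_pos' (V := V) (I := I)
  rw [av, Finset.sum_const, Finset.card_univ, Fintype.card_fun, nsmul_eq_mul]
  push_cast
  field_simp

theorem av_add (F G : (V → I) → ℝ) : av (fun f => F f + G f) = av F + av G := by
  simp only [av, Finset.sum_add_distrib, add_div]

theorem av_mul (c : ℝ) (F : (V → I) → ℝ) : av (fun f => c * F f) = c * av F := by
  simp only [av, ← Finset.mul_sum, mul_div_assoc]

theorem av_mono {F G : (V → I) → ℝ} (h : ∀ f, F f ≤ G f) : av F ≤ av G :=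
  div_le_div_of_nonneg_right (Finset.sum_le_sum fun f _ => h f) card_pos'.le

theorem abs_av_le {F G : (V → I) → ℝ} (h : ∀ f, |F f| ≤ G f) : |av F| ≤ av G :=
  abs_le.2 ⟨by
    have := av_mono (F := fun f => -(G f)) (G := F) fun f => (abs_le.1 (h f)).1
    have e := av_mul (-1) G
    simp only [neg_one_mul] at e
    linarith, av_mono fun f => (abs_le.1 (h f)).2⟩

/-- Exchange of the coordinates in `P`. -/
def swapOn (P : Finset V) : Equiv.Perm ((V → I) × (V → I)) where
  toFun q := (P.piecewise q.2 q.1, P.piecewise q.1 q.2)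
  invFun q := (P.piecewise q.2 q.1, P.piecewise q.1 q.2)
  left_inv q := by ext v <;> by_cases h : v ∈ P <;> simp [h]
  right_inv q := by ext v <;> by_cases h : v ∈ P <;> simp [h]

/-- Resampling the coordinates in `P`. -/
theorem av_resample (P : Finset V) (F : (V → I) → ℝ) :
    av (fun f => av fun g => F (P.piecewise g f)) = av F := by
  have hK := card_pos' (V := V) (I := I)
  simp only [av, ← Finset.sum_div, div_div]
  rw [← Fintype.sum_prod_type' (f := fun f g => F (P.piecewise g f))]
  rw [show ∑ q : (V → I) × (V → I), F (P.piecewise q.2 q.1) = ∑ q : (V → I) × (V → I), F q.1 from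
    Equiv.sum_comp (swapOn P) fun q => F q.1]
  rw [Fintype.sum_prod_type]
  simp only [Finset.sum_const, Finset.card_univ, Fintype.card_fun, nsmul_eq_mul, Nat.cast_pow]
  rw [← Finset.mul_sum]
  field_simp

/-- Functions of disjoint coordinate sets are independent. -/
theorem av_indep (P : Finset V) {F G : (V → I) → ℝ} (hF : ∀ f g, (∀ v ∈ P, f v = g v) → F f = F g)
    (hG : ∀ f g, (∀ v ∉ P, f v = g v) → G f = G g) : av (fun f => F f * G f) = av F * av G := by
  rw [← av_resample P fun f => F f * G f]
  have : ∀ f g : V → I, F (P.piecewise g f) * G (P.piecewise g f) = G f * F g := fun f g => by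
    rw [hF _ g fun v hv => by simp [hv], hG _ f fun v hv => by simp [hv], mul_comm]
  simp only [this, av_mul]
  rw [← av_mul (av F)]
  exact congrArg av (funext fun f => mul_comm _ _)

/-- The law of one coordinate is uniform. -/
theorem av_coord (v : V) (h : I → ℝ) :
    av (fun f : V → I => h (f v)) = (∑ i, h i) / (Fintype.card I : ℝ) := by
  classical
  have hI : (0 : ℝ) < Fintype.card I := by exact_mod_cast Fintype.card_pos
  have hI' := card_pos' (V := V) (I := I)
  let e : (V → I) × I ≃ (V → I) × I :=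
    { toFun := fun q => (Function.update q.1 v q.2, q.1 v)
      invFun := fun q => (Function.update q.1 v q.2, q.1 v)
      left_inv := fun q => by simp
      right_inv := fun q => by simp }
  have h1 : ∑ q : (V → I) × I, h (q.1 v) = ∑ q : (V → I) × I, h q.2 := Equiv.sum_comp e fun q => h q.2
  rw [Fintype.sum_prod_type, Fintype.sum_prod_type] at h1
  simp only [Finset.sum_const, Finset.card_univ, nsmul_eq_mul, ← Finset.mul_sum, Fintype.card_fun,
    Nat.cast_pow] at h1
  rw [av]
  field_simp
  linarith

variable (U : I → I → ℝ) (hU : ∀ i j, U i j = U j i)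

/-- The mixed moment of an edge set. -/
noncomputable def w (γ : Finset (Sym2 V)) : ℝ := av fun f => ∏ e ∈ γ, ev U hU f e

/-- The homomorphism density of `S` in `1 + U`. -/
noncomputable def Zf (S : Finset (Sym2 V)) : ℝ := av fun f => ∏ e ∈ S, (1 + ev U hU f e)

/-- The joint moment. -/
noncomputable def Gf (γ S : Finset (Sym2 V)) : ℝ :=
  av fun f => (∏ e ∈ γ, ev U hU f e) * ∏ e ∈ S, (1 + ev U hU f e)

variable {U} {hU}

theorem Zf_empty : Zf U hU (∅ : Finset (Sym2 V)) = 1 := by
  simp only [Zf, Finset.prod_empty, av_const]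

theorem Zf_insert {a : Sym2 V} {S : Finset (Sym2 V)} (ha : a ∉ S) :
    Zf U hU (insert a S) = Zf U hU S + Gf U hU {a} S := by
  rw [Zf, Zf, Gf, ← av_add]
  refine congrArg av (funext fun f => ?_)
  rw [Finset.prod_insert ha, Finset.prod_singleton]
  ring

theorem Gf_insert {a : Sym2 V} {γ S : Finset (Sym2 V)} (ha : a ∈ S) (hγ : a ∉ γ) :
    Gf U hU γ S = Gf U hU γ (S.erase a) + Gf U hU (insert a γ) (S.erase a) := by
  rw [Gf, Gf, Gf, ← av_add]
  refine congrArg av (funext fun f => ?_)
  rw [← Finset.mul_prod_erase S _ ha, Finset.prod_insert hγ]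
  ring

theorem Gf_apart {γ S : Finset (Sym2 V)} (h : ∀ a ∈ S, ¬Tch γ a) :
    Gf U hU γ S = w U hU γ * Zf U hU S := by
  classical
  refine av_indep (univ.filter fun v => ∃ b ∈ γ, v ∈ b) (fun f g hfg => ?_) (fun f g hfg => ?_)
  · exact Finset.prod_congr rfl fun e he => ev_congr U hU fun v hv =>
      hfg v (Finset.mem_filter.2 ⟨Finset.mem_univ _, e, he, hv⟩)
  · refine Finset.prod_congr rfl fun e he => ?_
    rw [ev_congr U hU fun v hv => hfg v ?_]
    simp only [Finset.mem_filter, Finset.mem_univ, true_and, not_exists, not_and]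
    exact fun b hb hvb => h e he ⟨b, hb, v, hv, hvb⟩

theorem abs_w_le {δ : ℝ} (h : ∀ i j, |U i j| ≤ δ) (γ : Finset (Sym2 V)) :
    |w U hU γ| ≤ δ ^ γ.card := by
  refine (abs_av_le (G := fun _ => δ ^ γ.card) fun f => ?_).trans_eq (av_const _)
  rw [Finset.abs_prod, ← Finset.prod_const]
  exact Finset.prod_le_prod (fun e _ => abs_nonneg _) fun e _ => abs_ev_le h f e

end P050
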