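import Vale.Agent.P050.Main

/-!
P050: from the deterministic statement to graphs, and by sampling to kernels on any probability
space.
-/

namespace P050

open Finset MeasureTheory

section graph

variable {V : Type} [Fintype V] [DecidableEq V] {G : SimpleGraph V} [DecidableRel G.Adj]

theorem degLe_edgeFinset {Δ : ℕ} (h : ∀ v, G.degree v ≤ Δ) : DegLe G.edgeFinset Δ := by
  intro v
  rw [← G.incidenceFinset_eq_filter, G.card_incidenceFinset_eq_degree]
  exact h v

theorem exists_cyc_of_walk {v : V} {p : G.Walk v v} (hp : p.IsCycle) :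
    ∃ n c, Cyc G.edgeFinset n c ∧ n + 1 = p.length := by
  have h3 := hp.three_le_length
  refine ⟨p.length - 1, fun k => p.getVert k, ⟨by omega, fun k l e => ?_, fun k => ?_⟩, by omega⟩
  · exact Fin.ext (hp.getVert_injOn' (by simp only [Set.mem_ofPred_eq]; omega)
      (by simp only [Set.mem_ofPred_eq]; omega) e)
  · rw [SimpleGraph.mem_edgeFinset, SimpleGraph.mem_edgeSet]
    induction k using Fin.lastCases with
    | last =>
      have h := p.adj_getVert_succ (i := p.length - 1) (by omega)
      rw [show p.length - 1 + 1 = p.length by omega, p.getVert_length] at h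
      simpa using h
    | cast k =>
      have h := p.adj_getVert_succ (i := (k : ℕ)) (by omega)
      simpa [Fin.coeSucc_eq_succ] using h

/-- The number in the denominator of the radius. -/
def den (G : SimpleGraph V) [DecidableRel G.Adj] (Δ g : ℕ) : ℕ :=
  Δ * (g * (1 + Nat.log 2 Δ) + 1 + Nat.log 2 G.edgeFinset.card)

variable {Δ g : ℕ}

theorem one_le_degree_bound (hdeg : ∀ v, G.degree v ≤ Δ)
    (hcyc : ∃ (v : V) (p : G.Walk v v), p.IsCycle ∧ p.length ≤ 2 * g) : 1 ≤ Δ := by
  obtain ⟨v, p, hp, -⟩ := hcyc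
  have h3 := hp.three_le_length
  have hadj := p.adj_getVert_succ (i := 0) (by omega)
  exact le_trans ((G.degree_pos_iff_exists_adj _).2 ⟨_, hadj⟩) (hdeg _)

theorem den_pos (hdeg : ∀ v, G.degree v ≤ Δ)
    (hcyc : ∃ (v : V) (p : G.Walk v v), p.IsCycle ∧ p.length ≤ 2 * g) : 0 < den G Δ g :=
  Nat.mul_pos (one_le_degree_bound hdeg hcyc) (by omega)

/-- The finite kernel statement, without normalisation. -/
theorem mean_pow_le (hbip : G.IsBipartite) (hdeg : ∀ v, G.degree v ≤ Δ)
    (hcyc : ∃ (v : V) (p : G.Walk v v), p.IsCycle ∧ p.length ≤ 2 * g)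
    {I : Type} [Fintype I] [Nonempty I] {A : I → I → ℝ} (hA : ∀ i j, A i j = A j i)
    (hb : ∀ i j, |A i j - 1| ≤ 1 / (2 ^ 19 * (den G Δ g : ℝ))) :
    ((∑ i, ∑ j, A i j) / (Fintype.card I : ℝ) ^ 2) ^ G.edgeFinset.card
      ≤ av fun f : V → I => ∏ e ∈ G.edgeFinset, ev A hA f e := by
  classical
  set r := 1 / (2 ^ 19 * (den G Δ g : ℝ)) with hr
  have hden : (1 : ℝ) ≤ den G Δ g := by exact_mod_cast den_pos hdeg hcyc
  have hr0 : 0 < r := by rw [hr]; positivity
  have hr2 : r ≤ 1 / 2 := by
    rw [hr]; refine one_div_le_one_div_of_le (by norm_num) ?_; norm_num; linarith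
  set K := (Fintype.card I : ℝ) ^ 2 with hK
  have hK0 : 0 < K := by
    have : 0 < Fintype.card I := Fintype.card_pos
    positivity
  set μ := (∑ i, ∑ j, A i j) / K with hμ
  have hμ1 : |μ - 1| ≤ r := by
    have e : μ - 1 = (∑ i, ∑ j, (A i j - 1)) / K := by
      simp only [hμ, Finset.sum_sub_distrib, Finset.sum_const, Finset.card_univ, nsmul_eq_mul]
      rw [eq_div_iff hK0.ne', sub_mul, div_mul_cancel₀ _ hK0.ne', hK]
      ring
    rw [e, abs_div, abs_of_pos hK0, div_le_iff₀ hK0]
    refine (Finset.abs_sum_le_sum_abs _ _).trans ((Finset.sum_le_sum fun i _ =>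
      (Finset.abs_sum_le_sum_abs _ _).trans (Finset.sum_le_sum fun j _ => hb i j)).trans_eq ?_)
    simp only [Finset.sum_const, Finset.card_univ, nsmul_eq_mul, hK]
    ring
  have hμpos : 0 < μ := by linarith [(abs_le.1 hμ1).1]
  set U : I → I → ℝ := fun i j => A i j / μ - 1 with hUdef
  have hU : ∀ i j, U i j = U j i := fun i j => by simp only [hUdef, hA i j]
  have hUb : ∀ i j, |U i j| ≤ 4 * r := fun i j => by
    have h1 := abs_le.1 (hb i j)
    have h2 := abs_le.1 hμ1
    simp only [hUdef]
    rw [div_sub_one hμpos.ne', abs_div, abs_of_pos hμpos, div_le_iff₀ hμpos, abs_le]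
    have h3 : 4 * r * (1 / 2) ≤ 4 * r * μ :=
      mul_le_mul_of_nonneg_left (by linarith [h2.1]) (by linarith)
    constructor <;> linarith
  have hmean : ∑ i, ∑ j, U i j = 0 := by
    simp only [hUdef, Finset.sum_sub_distrib, ← Finset.sum_div, Finset.sum_const,
      Finset.card_univ, nsmul_eq_mul]
    rw [sub_eq_zero, div_eq_iff hμpos.ne']
    have : μ * K = ∑ i, ∑ j, A i j := div_mul_cancel₀ _ hK0.ne'
    rw [← this, hK]; ring
  obtain ⟨c⟩ := hbip
  let col : V → Bool := fun v => decide (c v = 0)
  have hcol : ∀ u v, s(u, v) ∈ G.edgeFinset → col u ≠ col v := by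
    intro u v h
    have hne := c.valid (show G.Adj u v by simpa using h)
    simp only [col, ne_eq, decide_eq_decide]
    generalize c u = a at hne ⊢
    generalize c v = b at hne ⊢
    revert hne
    revert a b
    decide
  have hd : ∀ b ∈ G.edgeFinset, ¬b.IsDiag := fun b hb =>
    G.not_isDiag_of_mem_edgeFinset hb
  obtain ⟨v, p, hp, hlen⟩ := hcyc
  obtain ⟨n0, c0, hc0, hn0⟩ := exists_cyc_of_walk hp
  obtain ⟨g', hg'⟩ := Cyc.even hc0 col hcol
  have hΔ := one_le_degree_bound hdeg ⟨v, p, hp, hlen⟩
  have hle : 4 * r * ((Δ * (g' * (1 + Nat.log 2 Δ) + 1 + Nat.log 2 G.edgeFinset.card) : ℕ) : ℝ)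
      ≤ 1 / 2 ^ 17 := by
    have hmono : Δ * (g' * (1 + Nat.log 2 Δ) + 1 + Nat.log 2 G.edgeFinset.card) ≤ den G Δ g :=
      Nat.mul_le_mul_left _ (by
        have : g' * (1 + Nat.log 2 Δ) ≤ g * (1 + Nat.log 2 Δ) :=
          Nat.mul_le_mul_right _ (by omega)
        omega)
    refine le_trans (mul_le_mul_of_nonneg_left (Nat.cast_le.2 hmono) (by linarith)) (le_of_eq ?_)
    rw [hr]; field_simp; norm_num
  have hg1 : 1 ≤ g' := by omega
  obtain ⟨hA1, hA2⟩ := numeric hΔ hg1 (by linarith) hle
  have hgR : g' ≤ g' * (Nat.log 2 Δ + 8) + Nat.log 2 G.edgeFinset.card + 4 := by nlinarith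
  have key := one_le_Zf (U := U) (hU := hU) hd hcol (degLe_edgeFinset hdeg) hmean
    (by linarith : 0 < 4 * r) hUb hc0 hg' hgR hA1 hΔ hA2
  have e : (fun f : V → I => ∏ e ∈ G.edgeFinset, ev A hA f e)
      = fun f => μ ^ G.edgeFinset.card * ∏ e ∈ G.edgeFinset, (1 + ev U hU f e) := by
    funext f
    rw [← Finset.prod_const, ← Finset.prod_mul_distrib]
    refine Finset.prod_congr rfl fun e _ => ?_
    induction e using Sym2.ind with
    | h x y =>
      simp only [ev_mk, hUdef]
      field_simp
      ring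
  rw [e, av_mul]
  exact le_mul_of_one_le_right (pow_nonneg hμpos.le _) key

end graph

section sampling

variable {Ω : Type} [MeasurableSpace Ω] (μ : Measure Ω) [IsProbabilityMeasure μ]

theorem measurePreserving_comp {V J : Type} [Fintype V] [Fintype J] {f : V → J}
    (hf : Function.Injective f) :
    MeasurePreserving (fun x : J → Ω => x ∘ f) (Measure.pi fun _ => μ) (Measure.pi fun _ => μ) := by
  classical
  refine ⟨by fun_prop, (Measure.pi_eq fun s hs => ?_).symm⟩
  rw [Measure.map_apply (by fun_prop) (MeasurableSet.univ_pi hs)]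
  set t : J → Set Ω := Function.extend f s fun _ => Set.univ with ht
  have hpre : (fun x : J → Ω => x ∘ f) ⁻¹' Set.univ.pi s = Set.univ.pi t := by
    ext x
    simp only [Set.mem_preimage, Set.mem_univ_pi, Function.comp_apply, ht]
    constructor
    · intro h j
      by_cases hj : ∃ v, f v = j
      · obtain ⟨v, rfl⟩ := hj; rw [hf.extend_apply]; exact h v
      · rw [Function.extend_apply' _ _ _ hj]; trivial
    · intro h v
      have := h (f v)
      rwa [hf.extend_apply] at this
  rw [hpre, Measure.pi_pi, ← Finset.prod_subset (Finset.subset_univ (univ.image f)) fun j _ hj => ?_,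
    Finset.prod_image hf.injOn]
  · exact Finset.prod_congr rfl fun v _ => by rw [ht, hf.extend_apply]
  · rw [ht, Function.extend_apply' _ _ _ (by simpa using hj), measure_univ]

theorem measurePreserving_pair {J : Type} [Fintype J] {i j : J} (h : i ≠ j) :
    MeasurePreserving (fun x : J → Ω => (x i, x j)) (Measure.pi fun _ => μ) (μ.prod μ) := by
  have hinj : Function.Injective ![i, j] := by
    intro a b; fin_cases a <;> fin_cases b <;> simp [h, h.symm]
  simpa [Function.comp_def] using
    (measurePreserving_piFinTwo fun _ : Fin 2 => μ).comp (measurePreserving_comp μ hinj)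

variable {V : Type} [Fintype V] [DecidableEq V] {G : SimpleGraph V} [DecidableRel G.Adj] {Δ g : ℕ}

theorem measurable_ev {J : Type} {W : Ω → Ω → ℝ} (hW : ∀ a b, W a b = W b a)
    (hm : Measurable (Function.uncurry W)) (f : V → J) (e : Sym2 V) :
    Measurable fun x : J → Ω => ev W hW (x ∘ f) e := by
  induction e using Sym2.ind with
  | h u v =>
    simp only [ev_mk, Function.comp_apply]
    exact hm.comp (f := fun x : J → Ω => (x (f u), x (f v))) (by fun_prop)

theorem one_sub_sq_div_le {N k : ℕ} (hN : 0 < N) (hk : k ≤ N) :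
    1 - (k : ℝ) ^ 2 / N ≤ (N.descFactorial k : ℝ) / (N : ℝ) ^ k := by
  have hN' : (0 : ℝ) < N := by exact_mod_cast hN
  have hkN : (k : ℝ) ≤ N := by exact_mod_cast hk
  have h1 : ((N : ℝ) - k) ^ k ≤ (N.descFactorial k : ℝ) := by
    rw [← Nat.cast_sub hk]
    exact_mod_cast (Nat.pow_le_pow_left (show N - k ≤ N + 1 - k by omega) k).trans
      (Nat.pow_sub_le_descFactorial N k)
  have h2 := one_add_mul_le_pow (a := -((k : ℝ) / N))
    (by have : (k : ℝ) / N ≤ 1 := (div_le_one hN').2 hkN; linarith) k
  calc 1 - (k : ℝ) ^ 2 / N = 1 + k * -((k : ℝ) / N) := by ring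
    _ ≤ (1 + -((k : ℝ) / N)) ^ k := h2
    _ = ((N : ℝ) - k) ^ k / (N : ℝ) ^ k := by rw [← div_pow]; congr 1; field_simp; ring
    _ ≤ _ := div_le_div_of_nonneg_right h1 (by positivity)

/-- The kernel statement, bound everywhere. -/
theorem one_le_integral (hbip : G.IsBipartite) (hdeg : ∀ v, G.degree v ≤ Δ)
    (hcyc : ∃ (v : V) (p : G.Walk v v), p.IsCycle ∧ p.length ≤ 2 * g)
    {W : Ω → Ω → ℝ} (hW : ∀ a b, W a b = W b a) (hm : Measurable (Function.uncurry W))
    (hb : ∀ a b, |W a b - 1| ≤ 1 / (2 ^ 19 * (den G Δ g : ℝ)))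
    (hint : ∫ p, W p.1 p.2 ∂μ.prod μ = 1) :
    1 ≤ ∫ x : V → Ω, ∏ e ∈ G.edgeFinset, ev W hW x e ∂Measure.pi fun _ => μ := by
  classical
  set r := 1 / (2 ^ 19 * (den G Δ g : ℝ)) with hr
  have hden : (1 : ℝ) ≤ den G Δ g := by exact_mod_cast den_pos hdeg hcyc
  have hr0 : 0 ≤ r := by rw [hr]; positivity
  have hr2 : r ≤ 1 := by
    rw [hr, div_le_one (by positivity)]; norm_num; linarith
  set m := G.edgeFinset.card
  set k := Fintype.card V
  set t := ∫ x : V → Ω, ∏ e ∈ G.edgeFinset, ev W hW x e ∂Measure.pi fun _ => μ with ht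
  set M : ℝ := 2 ^ m
  have hWb : ∀ a b, 0 ≤ W a b ∧ W a b ≤ 2 := fun a b => by
    have := abs_le.1 (hb a b); constructor <;> linarith
  have hevb : ∀ {J : Type} (x : J → Ω) (f : V → J) (e : Sym2 V), 0 ≤ ev W hW (x ∘ f) e ∧
      ev W hW (x ∘ f) e ≤ 2 := fun x f e => by
    induction e using Sym2.ind with
    | h u v => exact hWb _ _
  -- the inequality at `N` samples
  have hN : ∀ N : ℕ, 0 < N → k ≤ N → 1 - t ≤ (k : ℝ) ^ 2 / N * M := by
    intro N hN0 hkN
    haveI : Nonempty (Fin N) := ⟨⟨0, hN0⟩⟩
    have hN' : (0 : ℝ) < N := by exact_mod_cast hN0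
    set P := Measure.pi fun _ : Fin N => μ
    set A : (Fin N → Ω) → Fin N → Fin N → ℝ :=
      fun x i j => if i = j then 1 else W (x i) (x j) with hAdef
    have hAs : ∀ x i j, A x i j = A x j i := fun x i j => by
      by_cases h : i = j
      · simp [h]
      · simp only [hAdef, if_neg h, if_neg (Ne.symm h)]; exact hW _ _
    have hAb : ∀ x i j, |A x i j - 1| ≤ r := fun x i j => by
      simp only [hAdef]; split_ifs <;> simp [hr0, hb]
    have hA2 : ∀ x i j, 0 ≤ A x i j ∧ A x i j ≤ 2 := fun x i j => by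
      have := abs_le.1 (hAb x i j); constructor <;> linarith
    have hAm : ∀ i j, Measurable fun x => A x i j := fun i j => by
      simp only [hAdef]
      split_ifs
      · fun_prop
      · exact hm.comp (f := fun x : Fin N → Ω => (x i, x j)) (by fun_prop)
    have hAi : ∀ i j, Integrable (fun x => A x i j) P := fun i j =>
      Integrable.of_bound (hAm i j).aestronglyMeasurable 2 (.of_forall fun x => by
        rw [Real.norm_eq_abs, abs_of_nonneg (hA2 x i j).1]; exact (hA2 x i j).2)
    set F : (V → Fin N) → (Fin N → Ω) → ℝ :=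
      fun f x => ∏ e ∈ G.edgeFinset, ev (A x) (hAs x) f e with hFdef
    have hAe : ∀ (f : V → Fin N) x (e : Sym2 V), 0 ≤ ev (A x) (hAs x) f e ∧ ev (A x) (hAs x) f e ≤ 2 := fun f x e => by
      induction e using Sym2.ind with
      | h u v => exact hA2 x _ _
    have hF0 : ∀ f x, 0 ≤ F f x ∧ F f x ≤ M := fun f x =>
      ⟨Finset.prod_nonneg fun e _ => (hAe f x e).1, by
        simpa [hFdef, M, m] using Finset.prod_le_prod (s := G.edgeFinset)
          (fun e _ => (hAe f x e).1) (fun e _ => (hAe f x e).2)⟩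
    have hFm : ∀ f, Measurable (F f) := fun f => Finset.measurable_prod _ fun e _ => by
      induction e using Sym2.ind with
      | h u v => exact hAm _ _
    have hFi : ∀ f, Integrable (F f) P := fun f =>
      Integrable.of_bound (hFm f).aestronglyMeasurable M (.of_forall fun x => by
        rw [Real.norm_eq_abs, abs_of_nonneg (hF0 f x).1]; exact (hF0 f x).2)
    have hpt : ∀ x, 1 + (m : ℝ) * ((∑ i, ∑ j, A x i j) / (N : ℝ) ^ 2 - 1)
        ≤ (∑ f, F f x) / (N : ℝ) ^ k := by
      intro x
      have h := mean_pow_le hbip hdeg hcyc (hAs x) (hAb x)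
      simp only [av, Fintype.card_fin] at h
      refine le_trans ?_ h
      have h0 : (0 : ℝ) ≤ (∑ i, ∑ j, A x i j) / (N : ℝ) ^ 2 := div_nonneg
        (Finset.sum_nonneg fun i _ => Finset.sum_nonneg fun j _ => (hA2 x i j).1) (by positivity)
      have h2 := one_add_mul_le_pow (a := (∑ i, ∑ j, A x i j) / (N : ℝ) ^ 2 - 1) (by linarith) m
      rwa [add_sub_cancel] at h2
    have hpair : ∀ i j, ∫ x, A x i j ∂P = 1 := by
      intro i j
      simp only [hAdef]
      split_ifs with h
      · simp
      · have hp := measurePreserving_pair μ h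
        rw [← hint, ← hp.map_eq, integral_map hp.measurable.aemeasurable]
        exact hm.aestronglyMeasurable
    have hsumI : Integrable (fun x => ∑ i, ∑ j, A x i j) P :=
      integrable_finsetSum _ fun i _ => integrable_finsetSum _ fun j _ => hAi i j
    have hmean : ∫ x, (∑ i, ∑ j, A x i j) ∂P = (N : ℝ) ^ 2 := by
      rw [integral_finsetSum _ fun i _ => integrable_finsetSum _ fun j _ => hAi i j]
      simp_rw [integral_finsetSum _ fun j _ => hAi _ j, hpair]
      simp [sq]
    have hmono := integral_mono (μ := P)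
      (f := fun x => 1 + (m : ℝ) * ((∑ i, ∑ j, A x i j) / (N : ℝ) ^ 2 - 1))
      (g := fun x => (∑ f, F f x) / (N : ℝ) ^ k)
      ((integrable_const _).add (((hsumI.div_const _).sub (integrable_const _)).const_mul _))
      ((integrable_finsetSum _ fun f _ => hFi f).div_const _) hpt
    have e1 : ∫ x, (1 + (m : ℝ) * ((∑ i, ∑ j, A x i j) / (N : ℝ) ^ 2 - 1)) ∂P = 1 := by
      have hs := hsumI.div_const ((N : ℝ) ^ 2)
      have hsub : Integrable (fun x => (∑ i, ∑ j, A x i j) / (N : ℝ) ^ 2 - 1) P :=
        hs.sub (integrable_const 1)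
      rw [integral_add (integrable_const 1) (hsub.const_mul (m : ℝ)), integral_const_mul,
        integral_sub hs (integrable_const 1), integral_div, hmean,
        div_self (pow_ne_zero 2 hN'.ne')]
      simp
    rw [e1, integral_div, integral_finsetSum _ fun f _ => hFi f] at hmono
    set S := univ.filter fun f : V → Fin N => Function.Injective f
    have hinj : ∀ f ∈ S, ∫ x, F f x ∂P = t := by
      intro f hf
      have hf' : Function.Injective f := (Finset.mem_filter.1 hf).2
      have hp := measurePreserving_comp μ hf' (Ω := Ω)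
      rw [ht, ← hp.map_eq, integral_map hp.measurable.aemeasurable]
      · refine integral_congr_ae (.of_forall fun x => Finset.prod_congr rfl fun e he => ?_)
        induction e using Sym2.ind with
        | h u v =>
          have huv : u ≠ v := (show G.Adj u v by simpa using he).ne
          simp [hAdef, hf'.ne huv]
      · exact (Finset.measurable_prod _ fun e _ => by
          simpa using measurable_ev (Ω := Ω) hW hm (id : V → V) e).aestronglyMeasurable
    have hcardS : S.card = N.descFactorial k := by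
      have h := Fintype.card_embedding_eq (α := V) (β := Fin N)
      rw [Fintype.card_fin] at h
      rw [← h, ← Fintype.card_subtype]
      exact Fintype.card_congr (Equiv.subtypeInjectiveEquivEmbedding V (Fin N))
    have hsplit : ∑ f, ∫ x, F f x ∂P ≤ S.card * t + ((N : ℝ) ^ k - S.card) * M := by
      rw [← Finset.sum_filter_add_sum_filter_not univ (fun f : V → Fin N => Function.Injective f)]
      refine add_le_add (le_of_eq ((Finset.sum_congr rfl hinj).trans (by simp [S]))) ?_
      refine (Finset.sum_le_card_nsmul _ _ M fun f _ => ?_).trans_eq ?_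
      · exact (integral_mono (hFi f) (integrable_const M) fun x => (hF0 f x).2).trans_eq (by simp)
      · rw [nsmul_eq_mul]
        congr 1
        have := Finset.card_filter_add_card_filter_not (s := (univ : Finset (V → Fin N)))
          (fun f : V → Fin N => Function.Injective f)
        rw [Finset.card_univ, Fintype.card_fun, Fintype.card_fin] at this
        have hc : ((N : ℝ)) ^ k = ((N ^ k : ℕ) : ℝ) := by push_cast; ring
        rw [hc, eq_sub_iff_add_eq, add_comm]
        exact_mod_cast this
    set q := (N.descFactorial k : ℝ) / (N : ℝ) ^ k with hq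
    have hq1 := one_sub_sq_div_le hN0 hkN
    have hq2 : q ≤ 1 := (div_le_one (by positivity)).2 (by exact_mod_cast Nat.descFactorial_le_pow N k)
    have ht0 : 0 ≤ t := integral_nonneg fun x => Finset.prod_nonneg fun e _ => (hevb x id e).1
    have hM : 0 ≤ M := by positivity
    have h1 : 1 ≤ q * t + (1 - q) * M := by
      refine hmono.trans ((div_le_div_of_nonneg_right hsplit (by positivity)).trans_eq ?_)
      rw [hq, hcardS]; field_simp
    nlinarith [mul_nonneg (sub_nonneg.2 hq2) ht0]
  by_contra hlt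
  push Not at hlt
  obtain ⟨N, hN1⟩ := exists_nat_gt (max ((k : ℝ) ^ 2 * M / (1 - t)) (max (k : ℝ) 1))
  have hN0 : (1 : ℝ) < N := lt_of_le_of_lt (le_trans (le_max_right _ _) (le_max_right _ _)) hN1
  have hkN : (k : ℝ) < N := lt_of_le_of_lt (le_trans (le_max_left _ _) (le_max_right _ _)) hN1
  have h := hN N (by exact_mod_cast (zero_lt_one.trans hN0)) (by exact_mod_cast hkN.le)
  have h2 : (k : ℝ) ^ 2 * M / (1 - t) < N := lt_of_le_of_lt (le_max_left _ _) hN1
  rw [div_lt_iff₀ (by linarith)] at h2
  rw [div_mul_eq_mul_div, le_div_iff₀ (by linarith)] at h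
  linarith

/-- The kernel statement, bound almost everywhere. -/
theorem one_le_integral_ae (hbip : G.IsBipartite) (hdeg : ∀ v, G.degree v ≤ Δ)
    (hcyc : ∃ (v : V) (p : G.Walk v v), p.IsCycle ∧ p.length ≤ 2 * g)
    {W : Ω → Ω → ℝ} (hW : ∀ a b, W a b = W b a) (hm : Measurable (Function.uncurry W))
    (hb : ∀ᵐ p ∂μ.prod μ, |W p.1 p.2 - 1| ≤ 1 / (2 ^ 19 * (den G Δ g : ℝ)))
    (hint : ∫ p, W p.1 p.2 ∂μ.prod μ = 1) :
    1 ≤ ∫ x : V → Ω, ∏ e ∈ G.edgeFinset, ev W hW x e ∂Measure.pi fun _ => μ := by
  set r := 1 / (2 ^ 19 * (den G Δ g : ℝ)) with hr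
  have hr0 : 0 ≤ r := by rw [hr]; positivity
  set W' : Ω → Ω → ℝ := fun a b => max (1 - r) (min (1 + r) (W a b)) with hW'
  have hW's : ∀ a b, W' a b = W' b a := fun a b => by simp only [hW', hW a b]
  have hm' : Measurable (Function.uncurry W') :=
    measurable_const.max (measurable_const.min hm)
  have hb' : ∀ a b, |W' a b - 1| ≤ r := fun a b => by
    rw [abs_le]
    simp only [hW']
    have h1 := le_max_left (1 - r) (min (1 + r) (W a b))
    have h2 : max (1 - r) (min (1 + r) (W a b)) ≤ 1 + r := max_le (by linarith) (min_le_left _ _)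
    constructor <;> linarith
  have hae : ∀ᵐ p ∂μ.prod μ, W' p.1 p.2 = W p.1 p.2 := hb.mono fun p hp => by
    obtain ⟨h1, h2⟩ := abs_le.1 hp
    simp only [hW']
    rw [min_eq_right (by linarith), max_eq_right (by linarith)]
  have key := one_le_integral μ hbip hdeg hcyc hW's hm' hb'
    ((integral_congr_ae hae).trans hint)
  refine key.trans_eq (integral_congr_ae ?_)
  have hall : ∀ᵐ x ∂Measure.pi fun _ : V => μ, ∀ e ∈ G.edgeFinset,
      ev W' hW's x e = ev W hW x e := by
    rw [Filter.eventually_all_finset]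
    intro e he
    induction e using Sym2.ind with
    | h u v =>
      have huv : u ≠ v := (show G.Adj u v by simpa using he).ne
      simpa using (measurePreserving_pair μ huv).quasiMeasurePreserving.ae hae
  exact hall.mono fun x hx => Finset.prod_congr rfl hx

end sampling

end P050
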