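import Vale.Agent.P050.Shape

/-!
P050: assembly. The connected sets that are not a two-edge path or a short cycle are dominated by
those that are, so `t(E, 1 + U) ≥ 1` on an `L^∞` ball whose radius depends only on the maximum
degree, the girth and the logarithm of the number of edges.
-/

namespace P050

open Finset
open scoped Classical

variable {V I : Type} [Fintype V] [DecidableEq V] [Fintype I] [Nonempty I] [DecidableEq I]

/-- A two-edge set or the edge set of a cycle of length at most `2 R`. -/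
def Special (R : ℕ) (π : Finset (Sym2 V)) : Prop :=
  π.card = 2 ∨ ∃ n c, Cyc π n c ∧ cedges c = π ∧ n + 1 ≤ 2 * R

variable {U : I → I → ℝ} {hU : ∀ i j, U i j = U j i} {δ : ℝ} {E : Finset (Sym2 V)} {col : V → Bool}

theorem one_add_pow_le_lin {x : ℝ} {k : ℕ} (hx : 0 ≤ x) (h : x * k ≤ 1) :
    (1 + x) ^ k ≤ 1 + 2 * (x * k) := by
  have h1 : (1 + x) ^ k ≤ Real.exp (x * k) := by
    rw [mul_comm x, Real.exp_nat_mul]
    exact pow_le_pow_left₀ (by linarith) (by linarith [Real.add_one_le_exp x]) k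
  have h0 : 0 ≤ x * k := by positivity
  have h2 := (abs_le.1 (Real.abs_exp_sub_one_le (x := x * k) (by rwa [abs_of_nonneg h0]))).2
  rw [abs_of_nonneg h0] at h2
  linarith

theorem trace_mono (h : ∀ i j, |U i j| ≤ δ) (hU : ∀ i j, U i j = U j i) (g : ℕ) : ∀ j : ℕ,
    Matrix.trace (kmat U ^ (2 * (g + j))) ≤ δ ^ (2 * j) * Matrix.trace (kmat U ^ (2 * g))
  | 0 => by simp
  | j + 1 => by
    have h1 := trace_pow_succ_le (kmat_symm hU) (g + j)
    rw [show g + (j + 1) = g + j + 1 by omega]
    refine h1.trans ((mul_le_mul (frob_kmat_le h) (trace_mono h hU g j)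
      (trace_pow_nonneg (kmat_symm hU) _) (sq_nonneg _)).trans_eq ?_)
    rw [← mul_assoc, ← pow_add, show 2 + 2 * j = 2 * (j + 1) by ring]

theorem touch_of_card_two {π : Finset (Sym2 V)} (hc : Conn π) (h2 : π.card = 2) :
    ∃ a b, a ≠ b ∧ π = {a, b} ∧ Touch a b := by
  obtain ⟨a, b, hab, rfl⟩ := Finset.card_eq_two.1 h2
  refine ⟨a, b, hab, rfl, ?_⟩
  obtain ⟨x, hx, y, hy, hxy⟩ := hc.2 {a}
    (Finset.ssubset_iff_subset_ne.2 ⟨by simp, fun e => by
      have := congrArg Finset.card e; simp [hab] at this⟩) (Finset.singleton_nonempty a)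
  simp only [Finset.mem_sdiff, Finset.mem_insert, Finset.mem_singleton] at hx hy
  obtain rfl : x = b := hx.1.resolve_left hx.2
  exact hy ▸ hxy.symm

theorem conn_pair {a b : Sym2 V} (hab : a ≠ b) (h : Touch a b) : Conn {a, b} := by
  refine ⟨Finset.insert_nonempty _ _, fun P hP hne => ?_⟩
  by_cases ha : a ∈ P
  · refine ⟨b, ?_, a, ha, h.symm⟩
    simp only [Finset.mem_sdiff, Finset.mem_insert, Finset.mem_singleton, or_true, true_and]
    exact fun hb => hP.2 (by simp [Finset.insert_subset_iff, ha, hb])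
  · obtain ⟨p, hp⟩ := hne
    have := hP.1 hp
    simp only [Finset.mem_insert, Finset.mem_singleton] at this
    obtain rfl : p = b := this.resolve_left fun e => ha (e ▸ hp)
    exact ⟨a, by simp [ha], p, hp, h⟩

/-- Every connected set is special, or below a special one, or long. -/
theorem classify (hd : ∀ b ∈ E, ¬b.IsDiag) (hcol : ∀ u v, s(u, v) ∈ E → col u ≠ col v)
    (hδ0 : 0 < δ) (h : ∀ i j, |U i j| ≤ δ) {R g : ℕ} (hgR : g ≤ R)
    {γ : Finset (Sym2 V)} (hγ : γ ∈ conns E) (hcard : 2 ≤ γ.card) (hns : ¬Special R γ) :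
    (∃ π ∈ (conns E).filter (Special R), π ⊂ γ ∧
        |w U hU γ| ≤ δ ^ (γ.card - π.card) * w U hU π) ∨
      (2 * R < γ.card ∧
        |w U hU γ| ≤ δ ^ γ.card / δ ^ (2 * g) * Matrix.trace (kmat U ^ (2 * g))) := by
  simp only [conns, Finset.mem_filter, Finset.mem_powerset] at hγ
  obtain ⟨hsub, hconn⟩ := hγ
  have hdγ : ∀ b ∈ γ, ¬b.IsDiag := fun b hb => hd b (hsub hb)
  by_cases hleaf : ∃ v v', v ≠ v' ∧ (γ.filter (v ∈ ·)).card = 1 ∧ (γ.filter (v' ∈ ·)).card = 1
  · obtain ⟨v, v', hvv, h1, h1'⟩ := hleaf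
    obtain ⟨a, ha⟩ := Finset.card_eq_one.1 h1
    obtain ⟨b, hb⟩ := Finset.card_eq_one.1 h1'
    have ha' : a ∈ γ ∧ v ∈ a := Finset.mem_filter.1 (ha ▸ Finset.mem_singleton_self a)
    have hb' : b ∈ γ ∧ v' ∈ b := Finset.mem_filter.1 (hb ▸ Finset.mem_singleton_self b)
    have hv : ∀ c ∈ γ, v ∈ c → c = a := fun c hc hvc =>
      Finset.mem_singleton.1 (ha ▸ Finset.mem_filter.2 ⟨hc, hvc⟩)
    have hv' : ∀ c ∈ γ, v' ∈ c → c = b := fun c hc hvc =>
      Finset.mem_singleton.1 (hb ▸ Finset.mem_filter.2 ⟨hc, hvc⟩)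
    obtain ⟨x, hx, y, hy, hxy⟩ := hconn.2 {a}
      (Finset.ssubset_iff_subset_ne.2 ⟨by simp [ha'.1], fun e => by
        have := congrArg Finset.card e; simp at this; omega⟩) (Finset.singleton_nonempty a)
    rw [Finset.mem_singleton] at hy
    subst hy
    simp only [Finset.mem_sdiff, Finset.mem_singleton] at hx
    have hab : y ≠ b := by
      rintro rfl
      obtain ⟨z, hzx, hzy⟩ := hxy
      have e : y = s(v, v') := (Sym2.mem_and_mem_iff hvv).1 ⟨ha'.2, hb'.2⟩
      subst e
      rcases Sym2.mem_iff.1 hzy with rfl | rfl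
      · exact hx.2 (hv x hx.1 hzx)
      · exact hx.2 (hv' x hx.1 hzx)
    have hxd : x ≠ y := hx.2
    refine Or.inl ⟨{x, y}, Finset.mem_filter.2 ⟨?_, Or.inl (Finset.card_pair hxd)⟩,
      Finset.ssubset_iff_subset_ne.2
        ⟨by simp [Finset.insert_subset_iff, hx.1, ha'.1], fun e => ?_⟩, ?_⟩
    · simp only [conns, Finset.mem_filter, Finset.mem_powerset]
      exact ⟨by simp [Finset.insert_subset_iff, hsub hx.1, hsub ha'.1], conn_pair hxd hxy⟩
    · exact hns (e ▸ Or.inl (Finset.card_pair hxd))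
    · rw [Finset.card_pair hxd, w_path hxd (hdγ x hx.1) (hdγ y ha'.1) hxy]
      exact abs_w_leaves h hdγ hab ha'.1 hb'.1 ha'.2 hb'.2 hv hv'
  · push Not at hleaf
    obtain ⟨n, c, hc, hch⟩ := exists_chordless hdγ (exists_cyc hdγ (Finset.card_pos.1 (by omega))
      fun v v' hvv => by
        have := hleaf v v' hvv
        omega)
    obtain ⟨r, hr⟩ := Cyc.even hc col fun u v huv => hcol u v (hsub huv)
    have hw := abs_w_cycle (U := U) (hU := hU) hδ0 h hc hr hch
    have hck := Finset.card_le_card hc.sub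
    rw [hc.card_cedges] at hck
    by_cases hshort : n + 1 ≤ 2 * R
    · have hcc : Cyc (cedges c) n c :=
        ⟨hc.two_le, hc.inj, fun k => Finset.mem_image_of_mem _ (Finset.mem_univ k)⟩
      refine Or.inl ⟨cedges c, Finset.mem_filter.2 ⟨?_, Or.inr ⟨n, c, hcc, rfl, hshort⟩⟩,
        Finset.ssubset_iff_subset_ne.2 ⟨hc.sub, fun e => hns (e ▸ Or.inr ⟨n, c, hcc, rfl, hshort⟩)⟩,
        ?_⟩
      · simp only [conns, Finset.mem_filter, Finset.mem_powerset]
        exact ⟨hc.sub.trans hsub, hc.conn⟩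
      · rw [hc.card_cedges, w_cycle hc hr, hr]
        exact hw
    · refine Or.inr ⟨by omega, hw.trans ?_⟩
      have hm := trace_mono h hU g (r - g)
      rw [show g + (r - g) = r by omega] at hm
      refine (mul_le_mul_of_nonneg_left hm (pow_nonneg hδ0.le _)).trans_eq ?_
      rw [← mul_assoc, ← pow_add]
      congr 1
      rw [eq_div_iff (pow_ne_zero _ hδ0.ne'), ← pow_add]
      congr 1
      omega

/-- The deterministic statement. -/
theorem one_le_Zf (hd : ∀ b ∈ E, ¬b.IsDiag) (hcol : ∀ u v, s(u, v) ∈ E → col u ≠ col v) {Δ : ℕ}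
    (hE : DegLe E Δ) (hmean : ∑ i, ∑ j, U i j = 0) (hδ0 : 0 < δ) (h : ∀ i j, |U i j| ≤ δ)
    {n0 g R : ℕ} {c0 : Fin (n0 + 1) → V} (hc0 : Cyc E n0 c0) (hg : n0 + 1 = 2 * g) (hgR : g ≤ R)
    (hΔR : δ * Δ * R ≤ 1 / 8192) (hΔ1 : 1 ≤ Δ)
    (hlong : 3 * (E.card : ℝ) * ((64 * (Δ : ℝ)) ^ (2 * g) * (64 * δ * Δ) ^ (2 * (R - g)))
      ≤ 1 / 64) :
    1 ≤ Zf U hU E := by
  have hΔ' : (1 : ℝ) ≤ Δ := by exact_mod_cast hΔ1
  have hR1 : 1 ≤ R := by have := hc0.two_le; omega
  have hR' : (1 : ℝ) ≤ R := by exact_mod_cast hR1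
  have hδΔ : δ * Δ ≤ 1 / 8192 := le_trans (le_mul_of_one_le_right (by positivity) hR') hΔR
  have hδ1 : δ ≤ 1 / 8192 := le_trans (le_mul_of_one_le_right hδ0.le hΔ') hδΔ
  set φ := (1 + 4 * δ) ^ (2 * Δ) with hφdef
  have hφ1 : 1 ≤ φ := one_le_pow₀ (by linarith)
  have hφ2 : φ ≤ 2 := by
    refine (one_add_pow_le_lin (by linarith) (by push_cast; linarith)).trans ?_
    push_cast; linarith
  have hφk : ∀ k : ℕ, k ≤ 2 * R → φ ^ k ≤ 2 := fun k hk => by
    refine (pow_le_pow_right₀ hφ1 hk).trans ?_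
    rw [hφdef, ← pow_mul]
    refine (one_add_pow_le_lin (by linarith) (by push_cast; linarith)).trans ?_
    push_cast; linarith
  refine le_trans ?_ (exp_le_Zf hE hδ0.le h (hΔ := by linarith) (hδ1 := by linarith)
    (φ := φ) le_rfl hφ2 E subset_rfl)
  rw [Real.one_le_exp_iff]
  set P := (conns E).filter (Special R) with hP
  have hspec : ∀ π ∈ P, 0 ≤ w U hU π ∧ π.card ≤ 2 * R := by
    intro π hπ
    simp only [hP, conns, Finset.mem_filter, Finset.mem_powerset] at hπ
    obtain ⟨⟨hsub, hconn⟩, h2 | ⟨n, c, hc, rfl, hn⟩⟩ := hπ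
    · obtain ⟨a, b, hab, rfl, hT⟩ := touch_of_card_two hconn h2
      rw [w_path hab (hd a (hsub (by simp))) (hd b (hsub (by simp))) hT]
      exact ⟨dev2_nonneg, by omega⟩
    · obtain ⟨r, hr⟩ := Cyc.even hc col fun u v huv => hcol u v (hsub huv)
      rw [w_cycle hc hr, hc.card_cedges]
      exact ⟨trace_pow_nonneg (kmat_symm hU) r, hn⟩
  set T := Matrix.trace (kmat U ^ (2 * g))
  have hTP : T ≤ ∑ π ∈ P, w U hU π := by
    have hcc : Cyc (cedges c0) n0 c0 :=
      ⟨hc0.two_le, hc0.inj, fun k => Finset.mem_image_of_mem _ (Finset.mem_univ k)⟩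
    refine (w_cycle (U := U) (hU := hU) hc0 hg).symm.le.trans
      (Finset.single_le_sum (fun π hπ => (hspec π hπ).1) ?_)
    simp only [hP, conns, Finset.mem_filter, Finset.mem_powerset]
    exact ⟨⟨hc0.sub, hc0.conn⟩, Or.inr ⟨n0, c0, hcc, rfl, by omega⟩⟩
  have hT0 : 0 ≤ T := trace_pow_nonneg (kmat_symm hU) g
  set A : Finset (Sym2 V) → ℝ := fun γ => |w U hU γ| * φ ^ γ.card with hA
  set L : Finset (Sym2 V) → ℝ :=
    fun γ => if 2 * R < γ.card then (2 * δ) ^ γ.card / δ ^ (2 * g) * T else 0 with hL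
  set S : Finset (Sym2 V) → ℝ := fun γ => ∑ π ∈ P,
    if π ⊂ γ then φ ^ π.card * w U hU π * (2 * δ) ^ (γ \ π).card else 0 with hS
  have hS0 : ∀ γ, 0 ≤ S γ := fun γ => Finset.sum_nonneg fun π hπ => by
    have := (hspec π hπ).1
    split_ifs <;> positivity
  have hL0 : ∀ γ, 0 ≤ L γ := fun γ => by simp only [hL]; split_ifs <;> positivity
  -- each term
  have hterm : ∀ γ ∈ conns E, (if γ ∈ P then w U hU γ / 4 else -(2 * (S γ + L γ)))
      ≤ low U hU φ γ - 12 * δ * (|w U hU γ| * φ ^ γ.card) := by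
    intro γ hγ
    have hp1 : 1 ≤ φ ^ γ.card := one_le_pow₀ hφ1
    split_ifs with hγP
    · obtain ⟨hw0, hk⟩ := hspec γ hγP
      have hp2 := hφk _ hk
      rw [low, if_pos hw0, abs_of_nonneg hw0]
      have h1 : w U hU γ / 2 ≤ w U hU γ / φ ^ γ.card :=
        div_le_div_of_nonneg_left hw0 (by linarith) hp2
      have h2 : 12 * δ * (w U hU γ * φ ^ γ.card) ≤ 12 * δ * (w U hU γ * 2) := by gcongr
      have h3 := mul_le_mul_of_nonneg_right hδ1 hw0
      linarith
    · have hAle : A γ ≤ S γ + L γ := by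
        rcases Nat.lt_or_ge γ.card 2 with hlt | hge
        · simp only [conns, Finset.mem_filter, Finset.mem_powerset] at hγ
          obtain ⟨a, rfl⟩ := Finset.card_eq_one.1
            (show γ.card = 1 by have := hγ.2.1.card_pos; omega)
          simp only [hA, w_single hmean (hd a (hγ.1 (by simp))), abs_zero, zero_mul]
          exact add_nonneg (hS0 _) (hL0 _)
        have hns : ¬Special R γ := fun hs => hγP (Finset.mem_filter.2 ⟨hγ, hs⟩)
        rcases classify (U := U) (hU := hU) hd hcol hδ0 h hgR hγ hge hns with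
          ⟨π, hπ, hsub, hb⟩ | ⟨hlen, hb⟩
        · refine le_add_of_le_of_nonneg ?_ (hL0 _)
          refine le_trans ?_ (Finset.single_le_sum
            (f := fun π => if π ⊂ γ then φ ^ π.card * w U hU π * (2 * δ) ^ (γ \ π).card else 0)
            (fun π hπ => by have := (hspec π hπ).1; split_ifs <;> positivity) hπ)
          rw [if_pos hsub, Finset.card_sdiff_of_subset hsub.1]
          simp only [hA]
          refine (mul_le_mul_of_nonneg_right hb (by positivity)).trans ?_
          have hk := Finset.card_le_card hsub.1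
          calc δ ^ (γ.card - π.card) * w U hU π * φ ^ γ.card
              = φ ^ π.card * w U hU π * (φ * δ) ^ (γ.card - π.card) := by
                conv_lhs => rw [show γ.card = π.card + (γ.card - π.card) by omega]
                rw [pow_add, mul_pow, show π.card + (γ.card - π.card) - π.card = γ.card - π.card by omega]
                ring
            _ ≤ _ := by
                have := (hspec π hπ).1
                gcongr
        · refine le_add_of_nonneg_of_le (hS0 _) ?_
          simp only [hA, hL, if_pos hlen]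
          refine (mul_le_mul_of_nonneg_right hb (by positivity)).trans ?_
          calc δ ^ γ.card / δ ^ (2 * g) * T * φ ^ γ.card
              = (φ * δ) ^ γ.card / δ ^ (2 * g) * T := by rw [mul_pow]; ring
            _ ≤ _ := by gcongr
      have hlow : -(A γ) ≤ low U hU φ γ := by
        simp only [hA, low]
        split_ifs with hw0
        · exact le_trans (neg_nonpos.2 (by positivity)) (div_nonneg hw0 (by linarith))
        · exact le_rfl
      have hA0 : 0 ≤ A γ := by simp only [hA]; positivity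
      have h12 : 12 * δ * A γ ≤ 1 * A γ := mul_le_mul_of_nonneg_right (by linarith) hA0
      simp only [hA] at hlow h12 hAle ⊢
      linarith
  refine le_trans ?_ (Finset.sum_le_sum hterm)
  have hsplit : ∑ γ ∈ conns E, (if γ ∈ P then w U hU γ / 4 else -(2 * (S γ + L γ)))
      ≥ (∑ π ∈ P, w U hU π) / 4 - 2 * (∑ γ ∈ conns E, S γ + ∑ γ ∈ conns E, L γ) := by
    rw [ge_iff_le, Finset.sum_div, ← Finset.sum_add_distrib, Finset.mul_sum, hP,
      Finset.sum_filter, ← Finset.sum_sub_distrib]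
    refine Finset.sum_le_sum fun γ hγ => ?_
    simp only [Finset.mem_filter, hγ, true_and]
    have := hS0 γ
    have := hL0 γ
    split_ifs <;> linarith
  refine le_trans ?_ hsplit
  -- the sum over extensions of a special set
  have hSsum : ∑ γ ∈ conns E, S γ ≤ ∑ π ∈ P, w U hU π / 32 := by
    simp only [hS]
    rw [Finset.sum_comm]
    refine Finset.sum_le_sum fun π hπ => ?_
    obtain ⟨hw0, hk⟩ := hspec π hπ
    have hπc : π ⊆ E ∧ Conn π := by
      simp only [hP, conns, Finset.mem_filter, Finset.mem_powerset] at hπ; exact hπ.1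
    rw [← Finset.sum_filter, ← Finset.mul_sum]
    have himg : ((conns E).filter (π ⊂ ·)).image (· \ π) ⊆ (Ext π (E \ π)).erase ∅ := by
      intro Q hQ
      obtain ⟨γ, hγ, rfl⟩ := Finset.mem_image.1 hQ
      simp only [conns, Finset.mem_filter, Finset.mem_powerset] at hγ
      refine Finset.mem_erase.2 ⟨?_, ?_⟩
      · exact fun h => hγ.2.2 (Finset.sdiff_eq_empty_iff_subset.1 h)
      · simp only [Ext, Finset.mem_filter, Finset.mem_powerset]
        exact ⟨Finset.sdiff_subset_sdiff hγ.1.1 subset_rfl, hγ.1.2.att hγ.2.1 hπc.2.1⟩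
    have hinj : Set.InjOn (· \ π) ↑((conns E).filter (π ⊂ ·)) := fun γ hγ γ' hγ' e => by
      simp only [Finset.coe_filter, Set.mem_ofPred_eq] at hγ hγ'
      simp only at e
      rw [← Finset.union_sdiff_of_subset hγ.2.1, e, Finset.union_sdiff_of_subset hγ'.2.1]
    have hsum : ∑ γ ∈ (conns E).filter (π ⊂ ·), (2 * δ) ^ (γ \ π).card
        ≤ ∑ Q ∈ Ext π (E \ π), (2 * δ) ^ Q.card - 1 := by
      rw [← Finset.sum_image (f := fun Q : Finset (Sym2 V) => (2 * δ) ^ Q.card) hinj]
      refine (Finset.sum_le_sum_of_subset_of_nonneg himg fun _ _ _ => by positivity).trans ?_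
      rw [← Finset.add_sum_erase _ _ (empty_mem_Ext π (E \ π))]
      simp
    have hy : 1 + 2 * δ * (1 + 8 * δ) ^ (2 * Δ) ≤ 1 + 8 * δ := by
      have h3 : (1 + 8 * δ) ^ (2 * Δ) ≤ 3 :=
        one_add_pow_le_three (by positivity) (by push_cast; linarith)
      have := mul_le_mul_of_nonneg_left h3 (show 0 ≤ 2 * δ by linarith)
      linarith
    have hext : ∑ Q ∈ Ext π (E \ π), (2 * δ) ^ Q.card ≤ 1 + 1 / 128 := by
      refine ((sum_Ext_le hE (by positivity) hy _ π Finset.sdiff_subset).trans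
        (pow_le_pow_right₀ (by linarith) ((hE.card_near Finset.sdiff_subset π).trans
          (Nat.mul_le_mul_left _ hk)))).trans ?_
      refine (one_add_pow_le_lin (by positivity) (by push_cast; linarith)).trans ?_
      push_cast; linarith
    calc φ ^ π.card * w U hU π * ∑ γ ∈ (conns E).filter (π ⊂ ·), (2 * δ) ^ (γ \ π).card
        ≤ 2 * w U hU π * (1 / 128) :=
          mul_le_mul (mul_le_mul_of_nonneg_right (hφk _ hk) hw0) (by linarith)
            (Finset.sum_nonneg fun _ _ => by positivity) (by linarith)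
      _ ≤ w U hU π / 32 := by linarith
  -- the long sets
  have hLsum : ∑ γ ∈ conns E, L γ ≤ T / 64 := by
    set x := 64 * δ * Δ with hx
    set y := 1 / (32 * (Δ : ℝ)) with hy
    have hxy : 2 * δ = x * y := by rw [hx, hy]; field_simp; ring
    have hy0 : 0 ≤ y := by positivity
    have hy1 : y ≤ 1 := by rw [hy, div_le_one (by positivity)]; linarith
    have hx1 : x ≤ 1 := by linarith
    have hx0 : 0 ≤ x := by positivity
    set F : Finset (Sym2 V) → ℝ := fun γ => if 2 * R < γ.card then (2 * δ) ^ γ.card else 0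
    have hF0 : ∀ γ, 0 ≤ F γ := fun γ => by simp only [F]; split_ifs <;> positivity
    have e1 : ∑ γ ∈ conns E, L γ = (∑ γ ∈ conns E, F γ) / δ ^ (2 * g) * T := by
      rw [Finset.sum_div, Finset.sum_mul]
      refine Finset.sum_congr rfl fun γ _ => ?_
      simp only [hL, F]
      split_ifs <;> simp
    have e2 : ∑ γ ∈ conns E, F γ ≤ ∑ e ∈ E, x ^ (2 * R) * 3 := by
      calc ∑ γ ∈ conns E, F γ ≤ ∑ γ ∈ conns E, ∑ e ∈ E, if e ∈ γ then F γ else 0 := by
            refine Finset.sum_le_sum fun γ hγ => ?_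
            simp only [conns, Finset.mem_filter, Finset.mem_powerset] at hγ
            obtain ⟨e, he⟩ := hγ.2.1
            exact (if_pos he).symm.le.trans (Finset.single_le_sum
              (f := fun e => if e ∈ γ then F γ else 0)
              (fun e _ => by split_ifs <;> simp [hF0]) (hγ.1 he))
        _ = ∑ e ∈ E, ∑ γ ∈ (conns E).filter (e ∈ ·), F γ := by
            rw [Finset.sum_comm]
            exact Finset.sum_congr rfl fun e _ => (Finset.sum_filter _ _).symm
        _ ≤ _ := by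
            refine Finset.sum_le_sum fun e _ => ?_
            have himg : ((conns E).filter (e ∈ ·)).image (·.erase e) ⊆ Ext {e} (E.erase e) := by
              intro Q hQ
              obtain ⟨γ, hγ, rfl⟩ := Finset.mem_image.1 hQ
              simp only [conns, Finset.mem_filter, Finset.mem_powerset] at hγ
              simp only [Ext, Finset.mem_filter, Finset.mem_powerset]
              exact ⟨Finset.erase_subset_erase _ hγ.1.1, (conn_iff hγ.2).1 hγ.1.2⟩
            have hinj : Set.InjOn (fun γ : Finset (Sym2 V) => γ.erase e)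
                ↑((conns E).filter (e ∈ ·)) := fun γ hγ γ' hγ' h => by
              simp only [Finset.coe_filter, Set.mem_ofPred_eq] at hγ hγ'
              simp only at h
              rw [← Finset.insert_erase hγ.2, h, Finset.insert_erase hγ'.2]
            have hle : ∀ γ ∈ (conns E).filter (e ∈ ·),
                F γ ≤ x ^ (2 * R) * y ^ (γ.erase e).card := by
              intro γ hγ
              simp only [F]
              split_ifs with hlen
              · rw [hxy, mul_pow]
                exact mul_le_mul (pow_le_pow_of_le_one hx0 hx1 hlen.le)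
                  (pow_le_pow_of_le_one hy0 hy1 Finset.card_erase_le) (by positivity) (by positivity)
              · positivity
            refine (Finset.sum_le_sum hle).trans ?_
            rw [← Finset.mul_sum]
            refine mul_le_mul_of_nonneg_left ?_ (by positivity)
            rw [← Finset.sum_image (f := fun Q : Finset (Sym2 V) => y ^ Q.card) hinj]
            refine (Finset.sum_le_sum_of_subset_of_nonneg himg fun _ _ _ => by positivity).trans ?_
            have h4 : (1 + 4 * y) ^ (2 * Δ) ≤ 3 := one_add_pow_le_three (by positivity) (by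
              rw [hy]; push_cast; field_simp; norm_num)
            have hy' : 1 + y * (1 + 4 * y) ^ (2 * Δ) ≤ 1 + 4 * y := by
              have := mul_le_mul_of_nonneg_left h4 hy0
              linarith
            exact (sum_Ext_le hE hy0 hy' _ _ (Finset.erase_subset _ _)).trans
              ((pow_le_pow_right₀ (by linarith)
                (by simpa using hE.card_near (Finset.erase_subset e E) {e})).trans h4)
    rw [e1]
    have e3 : (∑ _e ∈ E, x ^ (2 * R) * 3) / δ ^ (2 * g)
        = 3 * (E.card : ℝ) * ((64 * (Δ : ℝ)) ^ (2 * g) * x ^ (2 * (R - g))) := by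
      rw [Finset.sum_const, nsmul_eq_mul,
        show 2 * R = 2 * g + 2 * (R - g) by omega, pow_add,
        show x ^ (2 * g) = (64 * (Δ : ℝ)) ^ (2 * g) * δ ^ (2 * g) by rw [hx, ← mul_pow]; ring]
      field_simp
    calc _ ≤ (1 / 64) * T := by
          refine mul_le_mul_of_nonneg_right ?_ hT0
          exact ((div_le_div_of_nonneg_right e2 (by positivity)).trans_eq e3).trans hlong
      _ = T / 64 := by ring
  rw [← Finset.sum_div] at hSsum
  have : 0 ≤ ∑ π ∈ P, w U hU π := Finset.sum_nonneg fun π hπ => (hspec π hπ).1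
  linarith

theorem numeric {Δ g m : ℕ} {δ : ℝ} (hΔ : 1 ≤ Δ) (hg : 1 ≤ g) (hδ : 0 ≤ δ)
    (hle : δ * ((Δ * (g * (1 + Nat.log 2 Δ) + 1 + Nat.log 2 m) : ℕ) : ℝ) ≤ 1 / 2 ^ 17) :
    δ * Δ * ((g * (Nat.log 2 Δ + 8) + Nat.log 2 m + 4 : ℕ) : ℝ) ≤ 1 / 8192 ∧
      3 * (m : ℝ) * ((64 * (Δ : ℝ)) ^ (2 * g)
        * (64 * δ * Δ) ^ (2 * ((g * (Nat.log 2 Δ + 8) + Nat.log 2 m + 4) - g))) ≤ 1 / 64 := by
  set a := Nat.log 2 Δ
  set b := Nat.log 2 m
  set R := g * (a + 8) + b + 4
  set den := g * (1 + a) + 1 + b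
  push_cast at hle
  have hR : R ≤ 8 * den := by simp only [R, den]; nlinarith
  have hR' : (R : ℝ) ≤ 8 * den := by exact_mod_cast hR
  have hden : (1 : ℝ) ≤ den := by
    have : 1 ≤ den := by simp only [den]; omega
    exact_mod_cast this
  have hΔ' : (1 : ℝ) ≤ Δ := by exact_mod_cast hΔ
  have hle' : δ * ((Δ : ℝ) * den) ≤ 1 / 2 ^ 17 := by
    simpa [den] using hle
  constructor
  · calc δ * Δ * (R : ℝ) ≤ δ * Δ * (8 * den) := mul_le_mul_of_nonneg_left hR' (by positivity)
      _ = 8 * (δ * ((Δ : ℝ) * den)) := by ring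
      _ ≤ 8 * (1 / 2 ^ 17) := by linarith
      _ ≤ _ := by norm_num
  have hx : 64 * δ * Δ ≤ (1 / 2 : ℝ) ^ 10 := by
    have : δ * (Δ * 1) ≤ δ * ((Δ : ℝ) * den) := by gcongr
    norm_num at hle' ⊢
    linarith
  have hΔ2 : 64 * (Δ : ℝ) ≤ 2 ^ (a + 7) := by
    have h := (Nat.lt_pow_succ_log_self (b := 2) (by norm_num) Δ).le
    have h' : (Δ : ℝ) ≤ 2 ^ (a + 1) := by exact_mod_cast h
    calc 64 * (Δ : ℝ) ≤ 64 * 2 ^ (a + 1) := by linarith
      _ = _ := by rw [show a + 7 = (a + 1) + 6 by ring, pow_add 2 (a + 1) 6]; ring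
  have hm : (m : ℝ) ≤ 2 ^ (b + 1) := by
    exact_mod_cast (Nat.lt_pow_succ_log_self (b := 2) (by norm_num) m).le
  calc 3 * (m : ℝ) * ((64 * (Δ : ℝ)) ^ (2 * g) * (64 * δ * Δ) ^ (2 * (R - g)))
      ≤ 4 * 2 ^ (b + 1) * ((2 ^ (a + 7)) ^ (2 * g) * ((1 / 2 : ℝ) ^ 10) ^ (2 * (R - g))) := by
        gcongr <;> linarith
    _ = (2 : ℝ) ^ (2 + (b + 1) + (a + 7) * (2 * g)) * (1 / 2) ^ (10 * (2 * (R - g))) := by
        rw [← pow_mul, ← pow_mul, pow_add, pow_add]; ring
    _ ≤ (2 : ℝ) ^ (2 + (b + 1) + (a + 7) * (2 * g))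
          * (1 / 2) ^ (2 + (b + 1) + (a + 7) * (2 * g) + 6) := by
        refine mul_le_mul_of_nonneg_left (pow_le_pow_of_le_one (by norm_num) (by norm_num) ?_)
          (by positivity)
        have : R - g = g * (a + 7) + b + 4 := by
          have : R = g * (a + 7) + b + 4 + g := by simp only [R]; ring
          omega
        rw [this]
        nlinarith
    _ = _ := by
        rw [pow_add ((1 : ℝ) / 2), ← mul_assoc, ← mul_pow]
        norm_num

end P050
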