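import Vale.Agent.P050.Average

/-!
P050: the edge-by-edge expansion of `t(E, 1 + U)` over connected edge sets. `Ext γ S` is the set of
`Q ⊆ S` that are attached to `γ`; one exploration step splits it, and the same step gives every
bound needed: `∑ y ^ |Q| ≤ a ^ #(edges of S at γ)` as soon as `a ≥ 1 + y a ^ (2 Δ)`.
-/

namespace P050

open Finset
open scoped Classical

variable {V I : Type} [Fintype V] [DecidableEq V] [Fintype I] [Nonempty I]

/-- Every edge of `Q` is reached from `γ` inside `γ ∪ Q`. -/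
def Att (γ Q : Finset (Sym2 V)) : Prop :=
  ∀ Q' ⊂ Q, ∃ b ∈ Q \ Q', Tch (γ ∪ Q') b

/-- The subsets of `S` attached to `γ`. -/
noncomputable def Ext (γ S : Finset (Sym2 V)) : Finset (Finset (Sym2 V)) :=
  S.powerset.filter (Att γ)

/-- The edges of `S` at `γ`. -/
noncomputable def near (γ S : Finset (Sym2 V)) : Finset (Sym2 V) := S.filter (Tch γ)

/-- A connected edge set. -/
def Conn (γ : Finset (Sym2 V)) : Prop :=
  γ.Nonempty ∧ ∀ P ⊂ γ, P.Nonempty → ∃ b ∈ γ \ P, Tch P b

/-- At most `Δ` edges at every vertex. -/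
def DegLe (E : Finset (Sym2 V)) (Δ : ℕ) : Prop := ∀ v, (E.filter (v ∈ ·)).card ≤ Δ

theorem Touch.symm {a b : Sym2 V} (h : Touch a b) : Touch b a := by
  obtain ⟨v, h1, h2⟩ := h; exact ⟨v, h2, h1⟩

theorem Tch.mono {γ γ' : Finset (Sym2 V)} (h : γ ⊆ γ') {a : Sym2 V} (ha : Tch γ a) : Tch γ' a := by
  obtain ⟨b, hb, h'⟩ := ha; exact ⟨b, h hb, h'⟩

theorem tch_self {γ : Finset (Sym2 V)} {a : Sym2 V} (h : a ∈ γ) : Tch γ a := by
  induction a using Sym2.ind with
  | h u v => exact ⟨_, h, u, by simp, by simp⟩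

omit [Fintype V] in
theorem DegLe.mono {E S : Finset (Sym2 V)} {Δ : ℕ} (h : DegLe E Δ) (hS : S ⊆ E) : DegLe S Δ :=
  fun v => (Finset.card_le_card (Finset.filter_subset_filter _ hS)).trans (h v)

theorem DegLe.card_touch {E : Finset (Sym2 V)} {Δ : ℕ} (h : DegLe E Δ) (a : Sym2 V) :
    (E.filter (Touch · a)).card ≤ 2 * Δ := by
  induction a using Sym2.ind with
  | h u v =>
    refine (Finset.card_le_card (t := E.filter (u ∈ ·) ∪ E.filter (v ∈ ·)) fun b hb => ?_).trans
      ((Finset.card_union_le _ _).trans (by have := h u; have := h v; omega))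
    obtain ⟨hbE, x, hxb, hx⟩ := Finset.mem_filter.1 hb
    rcases Sym2.mem_iff.1 hx with rfl | rfl
    · exact Finset.mem_union_left _ (Finset.mem_filter.2 ⟨hbE, hxb⟩)
    · exact Finset.mem_union_right _ (Finset.mem_filter.2 ⟨hbE, hxb⟩)

theorem DegLe.card_near {E S : Finset (Sym2 V)} {Δ : ℕ} (h : DegLe E Δ) (hS : S ⊆ E)
    (γ : Finset (Sym2 V)) : (near γ S).card ≤ 2 * Δ * γ.card := by
  refine (Finset.card_le_card (t := γ.biUnion fun b => E.filter (Touch · b)) fun a ha => ?_).trans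
    (Finset.card_biUnion_le.trans ?_)
  · obtain ⟨haS, b, hb, hab⟩ := Finset.mem_filter.1 ha
    exact Finset.mem_biUnion.2 ⟨b, hb, Finset.mem_filter.2 ⟨hS haS, hab⟩⟩
  · refine (Finset.sum_le_card_nsmul γ _ _ fun b _ => h.card_touch b).trans ?_
    rw [smul_eq_mul, mul_comm]

theorem near_step {E S γ : Finset (Sym2 V)} {Δ : ℕ} (h : DegLe E Δ) (hS : S ⊆ E) {a : Sym2 V}
    (ha : a ∈ near γ S) :
    (near γ (S.erase a)).card + 1 ≤ (near γ S).card ∧
      (near (insert a γ) (S.erase a)).card + 1 ≤ (near γ S).card + 2 * Δ := by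
  have e : near γ (S.erase a) = (near γ S).erase a := by
    rw [near, near, Finset.filter_erase]
  have h0 : (near γ (S.erase a)).card + 1 ≤ (near γ S).card := by
    rw [e, Finset.card_erase_add_one ha]
  refine ⟨h0, ?_⟩
  have h1 : near (insert a γ) (S.erase a) ⊆ near γ (S.erase a) ∪ E.filter (Touch · a) := by
    intro b hb
    obtain ⟨hbS, c, hc, hbc⟩ := Finset.mem_filter.1 hb
    rcases Finset.mem_insert.1 hc with rfl | hc
    · exact Finset.mem_union_right _
        (Finset.mem_filter.2 ⟨hS (Finset.mem_of_mem_erase hbS), hbc⟩)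
    · exact Finset.mem_union_left _ (Finset.mem_filter.2 ⟨hbS, c, hc, hbc⟩)
  have := (Finset.card_le_card h1).trans (Finset.card_union_le _ _)
  have := h.card_touch a
  omega

/-! ### Attached sets -/

theorem Ext_apart {γ S : Finset (Sym2 V)} (h : ∀ a ∈ S, ¬Tch γ a) : Ext γ S = {∅} := by
  ext Q
  simp only [Ext, Finset.mem_filter, Finset.mem_powerset, Finset.mem_singleton]
  constructor
  · rintro ⟨hQ, hA⟩
    by_contra hne
    obtain ⟨b, hb, hb'⟩ := hA ∅ (Finset.empty_ssubset.2 (Finset.nonempty_iff_ne_empty.2 hne))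
    simp only [Finset.sdiff_empty, Finset.union_empty] at hb hb'
    exact h b (hQ hb) hb'
  · rintro rfl
    exact ⟨Finset.empty_subset _, fun Q' hQ' => absurd hQ' (Finset.not_ssubset_empty _)⟩

theorem att_insert {γ Q : Finset (Sym2 V)} {a : Sym2 V} (ha : Tch γ a) (haQ : a ∈ Q) :
    Att γ Q ↔ Att (insert a γ) (Q.erase a) := by
  constructor
  · intro h Q' hQ'
    have haQ' : a ∉ Q' := fun h' => Finset.notMem_erase a Q (hQ'.1 h')
    obtain ⟨b, hb, hb'⟩ := h (insert a Q') (by
      refine Finset.ssubset_iff_subset_ne.2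
        ⟨Finset.insert_subset haQ (hQ'.1.trans (Finset.erase_subset _ _)), fun e => ?_⟩
      exact hQ'.ne (by rw [← e, Finset.erase_insert haQ']))
    simp only [Finset.mem_sdiff, Finset.mem_insert, not_or] at hb
    refine ⟨b, by simp [hb.1, hb.2.1, hb.2.2], ?_⟩
    rwa [Finset.union_insert, ← Finset.insert_union] at hb'
  · intro h Q' hQ'
    by_cases ha' : a ∈ Q'
    · obtain ⟨b, hb, hb'⟩ := h (Q'.erase a) (by
        refine Finset.ssubset_iff_subset_ne.2 ⟨Finset.erase_subset_erase _ hQ'.1, fun e => ?_⟩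
        exact hQ'.ne (by rw [← Finset.insert_erase ha', e, Finset.insert_erase haQ]))
      simp only [Finset.mem_sdiff, Finset.mem_erase] at hb
      refine ⟨b, by simp [hb.1.2, show b ∉ Q' from fun hq => hb.2 ⟨hb.1.1, hq⟩], ?_⟩
      rwa [Finset.insert_union, ← Finset.union_insert, Finset.insert_erase ha'] at hb'
    · exact ⟨a, Finset.mem_sdiff.2 ⟨haQ, ha'⟩, ha.mono Finset.subset_union_left⟩

theorem sum_Ext_step {γ S : Finset (Sym2 V)} {a : Sym2 V} (ha : a ∈ S) (ht : Tch γ a)
    (F : Finset (Sym2 V) → ℝ) :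
    ∑ Q ∈ Ext γ S, F Q
      = ∑ Q ∈ Ext γ (S.erase a), F Q + ∑ Q ∈ Ext (insert a γ) (S.erase a), F (insert a Q) := by
  rw [← Finset.sum_filter_add_sum_filter_not (Ext γ S) (a ∉ ·)]
  congr 1
  · refine Finset.sum_congr ?_ fun _ _ => rfl
    ext Q
    simp only [Ext, Finset.mem_filter, Finset.mem_powerset, Finset.subset_erase]
    tauto
  · refine Finset.sum_nbij' (fun Q => Q.erase a) (fun Q => insert a Q) (fun Q hQ => ?_)
      (fun Q hQ => ?_) (fun Q hQ => ?_) (fun Q hQ => ?_) fun Q hQ => ?_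
    · simp only [Ext, Finset.mem_filter, Finset.mem_powerset, not_not] at hQ ⊢
      exact ⟨Finset.erase_subset_erase _ hQ.1.1, (att_insert ht hQ.2).1 hQ.1.2⟩
    · simp only [Ext, Finset.mem_filter, Finset.mem_powerset, not_not] at hQ ⊢
      have : a ∉ Q := fun h => Finset.notMem_erase a S (hQ.1 h)
      refine ⟨⟨Finset.insert_subset ha (hQ.1.trans (Finset.erase_subset _ _)), ?_⟩,
        Finset.mem_insert_self _ _⟩
      rw [att_insert ht (Finset.mem_insert_self _ _), Finset.erase_insert this]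
      exact hQ.2
    · simp only [Finset.mem_filter, not_not] at hQ
      exact Finset.insert_erase hQ.2
    · simp only [Ext, Finset.mem_filter, Finset.mem_powerset] at hQ
      exact Finset.erase_insert fun h => Finset.notMem_erase a S (hQ.1 h)
    · simp only [Finset.mem_filter, not_not] at hQ
      rw [Finset.insert_erase hQ.2]

theorem empty_mem_Ext (γ S : Finset (Sym2 V)) : ∅ ∈ Ext γ S := by
  simp only [Ext, Finset.mem_filter, Finset.mem_powerset]
  exact ⟨Finset.empty_subset _, fun Q' hQ' => absurd hQ' (Finset.not_ssubset_empty _)⟩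

/-- The counting bound. -/
theorem sum_Ext_le {E : Finset (Sym2 V)} {Δ : ℕ} (hE : DegLe E Δ) {y a : ℝ} (hy : 0 ≤ y)
    (ha : 1 + y * a ^ (2 * Δ) ≤ a) :
    ∀ (S γ : Finset (Sym2 V)), S ⊆ E → ∑ Q ∈ Ext γ S, y ^ Q.card ≤ a ^ (near γ S).card := by
  have ha0 : 0 ≤ y * a ^ (2 * Δ) := mul_nonneg hy (by rw [pow_mul]; positivity)
  have ha1 : 1 ≤ a := by linarith
  intro S
  induction S using Finset.strongInduction with
  | H S ih =>
    intro γ hS
    rcases (near γ S).eq_empty_or_nonempty with h0 | ⟨b, hb⟩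
    · rw [Ext_apart fun c hc ht => by exact Finset.notMem_empty c (h0 ▸ (Finset.mem_filter.2 ⟨hc, ht⟩ : c ∈ near γ S)),
        Finset.sum_singleton, Finset.card_empty, pow_zero]
      exact one_le_pow₀ ha1
    obtain ⟨hbS, hbt⟩ := Finset.mem_filter.1 hb
    obtain ⟨h1, h2⟩ := near_step hE hS hb
    have hsub := (Finset.erase_subset b S).trans hS
    have hss : S.erase b ⊂ S := Finset.erase_ssubset hbS
    have e2 : ∑ Q ∈ Ext (insert b γ) (S.erase b), y ^ (insert b Q).card
        = y * ∑ Q ∈ Ext (insert b γ) (S.erase b), y ^ Q.card := by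
      rw [Finset.mul_sum]
      refine Finset.sum_congr rfl fun Q hQ => ?_
      simp only [Ext, Finset.mem_filter, Finset.mem_powerset] at hQ
      rw [Finset.card_insert_of_notMem fun h => Finset.notMem_erase b S (hQ.1 h), pow_succ']
    rw [sum_Ext_step hbS hbt, e2]
    set τ := (near γ S).card
    obtain ⟨k, hk⟩ : ∃ k, τ = k + 1 := ⟨τ - 1, by omega⟩
    calc _ ≤ a ^ k + y * a ^ (k + 2 * Δ) :=
          add_le_add ((ih _ hss _ hsub).trans (pow_le_pow_right₀ ha1 (by omega)))
            (mul_le_mul_of_nonneg_left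
              ((ih _ hss _ hsub).trans (pow_le_pow_right₀ ha1 (by omega))) hy)
      _ = a ^ k * (1 + y * a ^ (2 * Δ)) := by ring
      _ ≤ a ^ k * a := mul_le_mul_of_nonneg_left ha (by positivity)
      _ = a ^ τ := by rw [hk, pow_succ]

variable {U : I → I → ℝ} {hU : ∀ i j, U i j = U j i}

/-- The expansion over attached sets. -/
theorem Gf_expand : ∀ (S γ : Finset (Sym2 V)), Disjoint γ S →
    Gf U hU γ S = ∑ Q ∈ Ext γ S, w U hU (γ ∪ Q) * Zf U hU (S \ near (γ ∪ Q) S) := by
  intro S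
  induction S using Finset.strongInduction with
  | H S ih =>
    intro γ hd
    rcases (near γ S).eq_empty_or_nonempty with h0 | ⟨b, hb⟩
    · have h : ∀ c ∈ S, ¬Tch γ c := fun c hc ht => by
        exact Finset.notMem_empty c (h0 ▸ (Finset.mem_filter.2 ⟨hc, ht⟩ : c ∈ near γ S))
      rw [Gf_apart h, Ext_apart h, Finset.sum_singleton, Finset.union_empty, h0, Finset.sdiff_empty]
    obtain ⟨hbS, hbt⟩ := Finset.mem_filter.1 hb
    have hbγ : b ∉ γ := fun h => Finset.disjoint_left.1 hd h hbS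
    have key : ∀ γ', Tch γ' b → S.erase b \ near γ' (S.erase b) = S \ near γ' S := by
      intro γ' ht
      ext c
      simp only [near, Finset.mem_sdiff, Finset.mem_erase, Finset.mem_filter]
      constructor
      · rintro ⟨hc, h⟩
        exact ⟨hc.2, fun h' => h ⟨hc, h'.2⟩⟩
      · rintro ⟨hc, h⟩
        exact ⟨⟨by rintro rfl; exact h ⟨hc, ht⟩, hc⟩, fun h' => h ⟨hc, h'.2⟩⟩
    rw [Gf_insert hbS hbγ, sum_Ext_step hbS hbt,
      ih _ (Finset.erase_ssubset hbS) _
        (Finset.disjoint_of_subset_right (Finset.erase_subset _ _) hd),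
      ih _ (Finset.erase_ssubset hbS) _ (Finset.disjoint_insert_left.2
        ⟨Finset.notMem_erase _ _, Finset.disjoint_of_subset_right (Finset.erase_subset _ _) hd⟩)]
    congr 1
    · exact Finset.sum_congr rfl fun Q _ => by rw [key _ (hbt.mono Finset.subset_union_left)]
    · refine Finset.sum_congr rfl fun Q _ => ?_
      rw [Finset.insert_union, ← Finset.union_insert, key _ (hbt.mono Finset.subset_union_left)]

/-! ### Ratios -/

theorem abs_Gf_le {E : Finset (Sym2 V)} {Δ : ℕ} (hE : DegLe E Δ) {δ q a : ℝ} (hδ0 : 0 ≤ δ)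
    (hδ : ∀ i j, |U i j| ≤ δ) (hq : 1 ≤ q) (ha : q * (1 + δ * a ^ (2 * Δ)) ≤ a) :
    ∀ (S γ : Finset (Sym2 V)), Disjoint γ S → S ⊆ E →
      (∀ T ⊆ S, 0 < Zf U hU T ∧ ∀ b ∈ T, Zf U hU (T.erase b) ≤ q * Zf U hU T) →
      |Gf U hU γ S| ≤ δ ^ γ.card * a ^ (near γ S).card * Zf U hU S := by
  have ha0 : 0 ≤ δ * a ^ (2 * Δ) := mul_nonneg hδ0 (by rw [pow_mul]; positivity)
  have ha1 : 1 ≤ a := le_trans (one_le_mul_of_one_le_of_one_le hq (by linarith)) ha
  intro S
  induction S using Finset.strongInduction with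
  | H S ih =>
    intro γ hd hS hP
    rcases (near γ S).eq_empty_or_nonempty with h0 | ⟨b, hb⟩
    · have h : ∀ c ∈ S, ¬Tch γ c := fun c hc ht => by
        exact Finset.notMem_empty c (h0 ▸ (Finset.mem_filter.2 ⟨hc, ht⟩ : c ∈ near γ S))
      rw [Gf_apart h, h0, Finset.card_empty, pow_zero, mul_one, abs_mul,
        abs_of_pos (hP S subset_rfl).1]
      exact mul_le_mul_of_nonneg_right (abs_w_le hδ γ) (hP S subset_rfl).1.le
    obtain ⟨hbS, -⟩ := Finset.mem_filter.1 hb
    have hbγ : b ∉ γ := fun h => Finset.disjoint_left.1 hd h hbS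
    obtain ⟨h1, h2⟩ := near_step hE hS hb
    have hss := Finset.erase_ssubset hbS
    have hsub := (Finset.erase_subset b S).trans hS
    have hP' := fun T (hT : T ⊆ S.erase b) => hP T (hT.trans (Finset.erase_subset _ _))
    have g1 := ih _ hss γ (Finset.disjoint_of_subset_right (Finset.erase_subset _ _) hd) hsub hP'
    have g2 := ih _ hss (insert b γ) (Finset.disjoint_insert_left.2
      ⟨Finset.notMem_erase _ _, Finset.disjoint_of_subset_right (Finset.erase_subset _ _) hd⟩)
      hsub hP'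
    rw [Finset.card_insert_of_notMem hbγ] at g2
    rw [Gf_insert hbS hbγ]
    set τ := (near γ S).card
    obtain ⟨k, hk⟩ : ∃ k, τ = k + 1 := ⟨τ - 1, by omega⟩
    have hz := (hP' _ subset_rfl).1.le
    have hd0 : 0 ≤ δ ^ γ.card := pow_nonneg hδ0 _
    calc _ ≤ δ ^ γ.card * a ^ k * Zf U hU (S.erase b)
          + δ ^ (γ.card + 1) * a ^ (k + 2 * Δ) * Zf U hU (S.erase b) := by
          refine (abs_add_le _ _).trans (add_le_add (g1.trans ?_) (g2.trans ?_))
          · refine mul_le_mul_of_nonneg_right (mul_le_mul_of_nonneg_left ?_ hd0) hz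
            exact pow_le_pow_right₀ ha1 (by omega)
          · refine mul_le_mul_of_nonneg_right (mul_le_mul_of_nonneg_left ?_ (pow_nonneg hδ0 _)) hz
            exact pow_le_pow_right₀ ha1 (by omega)
      _ = δ ^ γ.card * a ^ k * (1 + δ * a ^ (2 * Δ)) * Zf U hU (S.erase b) := by ring
      _ ≤ δ ^ γ.card * a ^ k * (1 + δ * a ^ (2 * Δ)) * (q * Zf U hU S) := by
          refine mul_le_mul_of_nonneg_left ((hP S subset_rfl).2 b hbS) ?_
          have : 0 ≤ 1 + δ * a ^ (2 * Δ) := by linarith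
          positivity
      _ = δ ^ γ.card * a ^ k * (q * (1 + δ * a ^ (2 * Δ))) * Zf U hU S := by ring
      _ ≤ δ ^ γ.card * a ^ k * a * Zf U hU S := by
          refine mul_le_mul_of_nonneg_right (mul_le_mul_of_nonneg_left ha ?_) (hP S subset_rfl).1.le
          positivity
      _ = _ := by rw [hk]; ring

theorem one_add_pow_le_three {x : ℝ} {k : ℕ} (hx : 0 ≤ x) (h : x * k ≤ 1) : (1 + x) ^ k ≤ 3 :=
  calc (1 + x) ^ k ≤ Real.exp x ^ k :=
        pow_le_pow_left₀ (by linarith) (by linarith [Real.add_one_le_exp x]) k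
    _ = Real.exp (x * k) := by rw [← Real.exp_nat_mul, mul_comm]
    _ ≤ Real.exp 1 := Real.exp_le_exp.2 h
    _ ≤ 3 := Real.exp_one_lt_three.le

/-- Deleting one edge changes the density by a factor at most `1 + 4 δ`. -/
theorem ratio {E : Finset (Sym2 V)} {Δ : ℕ} (hE : DegLe E Δ) {δ : ℝ} (hδ0 : 0 ≤ δ)
    (hδ : ∀ i j, |U i j| ≤ δ) (hΔ : δ * (Δ : ℝ) ≤ 1 / 64) (hδ1 : δ ≤ 1 / 64) :
    ∀ S ⊆ E, 0 < Zf U hU S ∧ ∀ b ∈ S, Zf U hU (S.erase b) ≤ (1 + 4 * δ) * Zf U hU S ∧
      Zf U hU S ≤ (1 + 4 * δ) * Zf U hU (S.erase b) := by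
  set a := 1 + 8 * δ with hadef
  have ha1 : 1 ≤ a := by linarith
  have haΔ : a ^ (2 * Δ) ≤ 3 := one_add_pow_le_three (by positivity) (by push_cast; linarith)
  have ha : (1 + 4 * δ) * (1 + δ * a ^ (2 * Δ)) ≤ a :=
    calc (1 + 4 * δ) * (1 + δ * a ^ (2 * Δ)) ≤ (1 + 4 * δ) * (1 + δ * 3) := by gcongr
      _ ≤ a := by nlinarith
  intro S
  induction S using Finset.strongInduction with
  | H S ih =>
    intro hS
    have step : ∀ b ∈ S, |Gf U hU {b} (S.erase b)| ≤ 3 * δ * Zf U hU (S.erase b) := by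
      intro b hb
      have hlt := Finset.erase_ssubset hb
      have := abs_Gf_le hE hδ0 hδ (by linarith) ha (S.erase b) {b}
        (Finset.disjoint_singleton_left.2 (Finset.notMem_erase _ _))
        ((Finset.erase_subset _ _).trans hS) fun T hT => by
          obtain ⟨t1, t2⟩ := ih T (lt_of_le_of_lt hT hlt) (hT.trans ((Finset.erase_subset _ _).trans hS))
          exact ⟨t1, fun c hc => (t2 c hc).1⟩
      rw [Finset.card_singleton, pow_one] at this
      refine this.trans ?_
      have hn : (near {b} (S.erase b)).card ≤ 2 * Δ := by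
        simpa using hE.card_near ((Finset.erase_subset _ _).trans hS) {b}
      have hz := (ih _ hlt ((Finset.erase_subset _ _).trans hS)).1.le
      rw [mul_comm 3 δ]
      exact mul_le_mul_of_nonneg_right
        (mul_le_mul_of_nonneg_left ((pow_le_pow_right₀ ha1 hn).trans haΔ) hδ0) hz
    have hb' : ∀ b ∈ S, 0 < Zf U hU (S.erase b) ∧
        (1 - 3 * δ) * Zf U hU (S.erase b) ≤ Zf U hU S ∧
        Zf U hU S ≤ (1 + 3 * δ) * Zf U hU (S.erase b) := fun b hb => by
      have h := abs_le.1 (step b hb)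
      have hz := (ih _ (Finset.erase_ssubset hb) ((Finset.erase_subset _ _).trans hS)).1
      have e := Zf_insert (U := U) (hU := hU) (Finset.notMem_erase b S)
      rw [Finset.insert_erase hb] at e
      exact ⟨hz, by linarith [h.1], by linarith [h.2]⟩
    refine ⟨?_, fun b hb => ?_⟩
    · rcases S.eq_empty_or_nonempty with rfl | ⟨b, hb⟩
      · rw [Zf_empty]; norm_num
      · obtain ⟨hz, h1, -⟩ := hb' b hb
        exact lt_of_lt_of_le (mul_pos (by linarith) hz) h1
    · obtain ⟨hz, h1, h2⟩ := hb' b hb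
      constructor
      · calc Zf U hU (S.erase b) = 1 * Zf U hU (S.erase b) := (one_mul _).symm
          _ ≤ (1 + 4 * δ) * (1 - 3 * δ) * Zf U hU (S.erase b) :=
              mul_le_mul_of_nonneg_right (by nlinarith) hz.le
          _ = (1 + 4 * δ) * ((1 - 3 * δ) * Zf U hU (S.erase b)) := mul_assoc _ _ _
          _ ≤ _ := mul_le_mul_of_nonneg_left h1 (by linarith)
      · exact h2.trans (mul_le_mul_of_nonneg_right (by linarith) hz.le)

/-- Deleting a set of edges changes the density by a factor at most `(1 + 4 δ) ^ |R|`. -/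
theorem ratio_set {E : Finset (Sym2 V)} {Δ : ℕ} (hE : DegLe E Δ) {δ : ℝ} (hδ0 : 0 ≤ δ)
    (hδ : ∀ i j, |U i j| ≤ δ) (hΔ : δ * (Δ : ℝ) ≤ 1 / 64) (hδ1 : δ ≤ 1 / 64)
    {S : Finset (Sym2 V)} (hS : S ⊆ E) :
    ∀ R ⊆ S, Zf U hU (S \ R) ≤ (1 + 4 * δ) ^ R.card * Zf U hU S ∧
      Zf U hU S ≤ (1 + 4 * δ) ^ R.card * Zf U hU (S \ R) := by
  intro R
  induction R using Finset.induction with
  | empty => simp
  | insert b R hb ih =>
    intro hR
    obtain ⟨i1, i2⟩ := ih ((Finset.subset_insert _ _).trans hR)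
    have hb' : b ∈ S \ R := Finset.mem_sdiff.2 ⟨hR (Finset.mem_insert_self _ _), hb⟩
    obtain ⟨-, h⟩ := ratio hE hδ0 hδ hΔ hδ1 (S \ R) (Finset.sdiff_subset.trans hS)
    obtain ⟨h1, h2⟩ := h b hb'
    rw [Finset.card_insert_of_notMem hb, pow_succ, Finset.sdiff_insert]
    constructor
    · exact h1.trans ((mul_le_mul_of_nonneg_left i1 (by linarith)).trans_eq (by ring))
    · exact i2.trans ((mul_le_mul_of_nonneg_left h2 (by positivity)).trans_eq (by ring))

theorem conn_iff {γ : Finset (Sym2 V)} {e : Sym2 V} (he : e ∈ γ) :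
    Conn γ ↔ Att {e} (γ.erase e) := by
  constructor
  · rintro ⟨-, h⟩ Q' hQ'
    have hn : e ∉ Q' := fun h' => Finset.notMem_erase e γ (hQ'.1 h')
    obtain ⟨b, hb, hb'⟩ := h (insert e Q') (by
      refine Finset.ssubset_iff_subset_ne.2
        ⟨Finset.insert_subset he (hQ'.1.trans (Finset.erase_subset _ _)), fun e' => ?_⟩
      exact hQ'.ne (by rw [← e', Finset.erase_insert hn])) ⟨e, Finset.mem_insert_self _ _⟩
    simp only [Finset.mem_sdiff, Finset.mem_insert, not_or] at hb
    exact ⟨b, by simp [hb.1, hb.2.1, hb.2.2], by rwa [Finset.singleton_union]⟩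
  · intro h
    refine ⟨⟨e, he⟩, fun P hP hPne => ?_⟩
    by_cases heP : e ∈ P
    · obtain ⟨b, hb, hb'⟩ := h (P.erase e) (by
        refine Finset.ssubset_iff_subset_ne.2 ⟨Finset.erase_subset_erase _ hP.1, fun e' => ?_⟩
        exact hP.ne (by rw [← Finset.insert_erase heP, e', Finset.insert_erase he]))
      simp only [Finset.mem_sdiff, Finset.mem_erase] at hb
      refine ⟨b, by simp [hb.1.2, show b ∉ P from fun hq => hb.2 ⟨hb.1.1, hq⟩], ?_⟩
      rwa [Finset.singleton_union, Finset.insert_erase heP] at hb'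
    · set Q' := (γ \ P).erase e with hQ'
      obtain ⟨p, hp⟩ := hPne
      obtain ⟨b, hb, c, hc, hbc⟩ := h Q' (by
        refine Finset.ssubset_iff_subset_ne.2
          ⟨Finset.erase_subset_erase _ Finset.sdiff_subset, fun e' => ?_⟩
        have : p ∈ Q' := e' ▸ Finset.mem_erase.2 ⟨fun h' => heP (h' ▸ hp), hP.1 hp⟩
        simp [hQ', hp] at this)
      simp only [hQ', Finset.mem_sdiff, Finset.mem_erase] at hb
      have hbP : b ∈ P := by by_contra hbP; exact hb.2 ⟨hb.1.1, hb.1.2, hbP⟩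
      have hc' : c ∈ γ \ P := by
        rcases Finset.mem_union.1 hc with h' | h'
        · rw [Finset.mem_singleton] at h'; subst h'; exact Finset.mem_sdiff.2 ⟨he, heP⟩
        · exact Finset.mem_of_mem_erase h'
      exact ⟨c, hc', b, hbP, hbc.symm⟩

theorem Conn.att {γ π : Finset (Sym2 V)} (h : Conn γ) (hπ : π ⊆ γ) (hne : π.Nonempty) :
    Att π (γ \ π) := by
  intro Q' hQ'
  obtain ⟨b, hb, hb'⟩ := h.2 (π ∪ Q') (by
    refine Finset.ssubset_iff_subset_ne.2
      ⟨Finset.union_subset hπ (hQ'.1.trans Finset.sdiff_subset), fun e => ?_⟩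
    refine hQ'.2 fun x hx => ?_
    rw [Finset.mem_sdiff, ← e, Finset.mem_union] at hx
    exact hx.1.resolve_left hx.2) (hne.mono Finset.subset_union_left)
  simp only [Finset.mem_sdiff, Finset.mem_union, not_or] at hb
  exact ⟨b, by simp [hb.1, hb.2.1, hb.2.2], hb'⟩

/-- The connected subsets of `S`. -/
noncomputable def conns (S : Finset (Sym2 V)) : Finset (Finset (Sym2 V)) := S.powerset.filter Conn

theorem sum_conns_insert {S : Finset (Sym2 V)} {e : Sym2 V} (he : e ∉ S)
    (F : Finset (Sym2 V) → ℝ) :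
    ∑ γ ∈ conns (insert e S), F γ = ∑ γ ∈ conns S, F γ + ∑ Q ∈ Ext {e} S, F (insert e Q) := by
  rw [← Finset.sum_filter_add_sum_filter_not (conns (insert e S)) (e ∉ ·)]
  congr 1
  · refine Finset.sum_congr ?_ fun _ _ => rfl
    ext γ
    simp only [conns, Finset.mem_filter, Finset.mem_powerset]
    constructor
    · rintro ⟨⟨h1, h2⟩, h3⟩
      exact ⟨fun x hx => (Finset.mem_insert.1 (h1 hx)).resolve_left fun h => h3 (h ▸ hx), h2⟩
    · rintro ⟨h1, h2⟩
      exact ⟨⟨h1.trans (Finset.subset_insert _ _), h2⟩, fun h => he (h1 h)⟩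
  · refine Finset.sum_nbij' (fun Q => Q.erase e) (fun Q => insert e Q) (fun Q hQ => ?_)
      (fun Q hQ => ?_) (fun Q hQ => ?_) (fun Q hQ => ?_) fun Q hQ => ?_
    · simp only [conns, Ext, Finset.mem_filter, Finset.mem_powerset, not_not] at hQ ⊢
      refine ⟨fun x hx => ?_, (conn_iff hQ.2).1 hQ.1.2⟩
      exact (Finset.mem_insert.1 (hQ.1.1 (Finset.mem_of_mem_erase hx))).resolve_left
        (Finset.ne_of_mem_erase hx)
    · simp only [conns, Ext, Finset.mem_filter, Finset.mem_powerset, not_not] at hQ ⊢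
      refine ⟨⟨Finset.insert_subset_insert _ hQ.1, ?_⟩, Finset.mem_insert_self _ _⟩
      rw [conn_iff (Finset.mem_insert_self _ _), Finset.erase_insert fun h => he (hQ.1 h)]
      exact hQ.2
    · simp only [Finset.mem_filter, not_not] at hQ
      exact Finset.insert_erase hQ.2
    · simp only [Ext, Finset.mem_filter, Finset.mem_powerset] at hQ
      exact Finset.erase_insert fun h => he (hQ.1 h)
    · simp only [Finset.mem_filter, not_not] at hQ
      rw [Finset.insert_erase hQ.2]

/-- The lower contribution of a connected set. -/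
noncomputable def low (U : I → I → ℝ) (hU : ∀ i j, U i j = U j i) (φ : ℝ) (γ : Finset (Sym2 V)) :
    ℝ :=
  if 0 ≤ w U hU γ then w U hU γ / φ ^ γ.card else -(|w U hU γ| * φ ^ γ.card)

/-- `log t(S, 1 + U)` dominates the sum of the contributions of the connected sets. -/
theorem exp_le_Zf {E : Finset (Sym2 V)} {Δ : ℕ} (hE : DegLe E Δ) {δ φ : ℝ} (hδ0 : 0 ≤ δ)
    (hδ : ∀ i j, |U i j| ≤ δ) (hΔ : δ * (Δ : ℝ) ≤ 1 / 64) (hδ1 : δ ≤ 1 / 64)
    (hφ : (1 + 4 * δ) ^ (2 * Δ) ≤ φ) (hφ2 : φ ≤ 2) :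
    ∀ S ⊆ E, Real.exp (∑ γ ∈ conns S,
      (low U hU φ γ - 12 * δ * (|w U hU γ| * φ ^ γ.card))) ≤ Zf U hU S := by
  have hφ1 : 1 ≤ φ := le_trans (one_le_pow₀ (by linarith)) hφ
  intro S
  induction S using Finset.induction with
  | empty =>
    intro _
    rw [Zf_empty, show conns (∅ : Finset (Sym2 V)) = ∅ by
      refine Finset.eq_empty_iff_forall_notMem.2 fun γ hγ => ?_
      simp only [conns, Finset.mem_filter, Finset.mem_powerset, Finset.subset_empty] at hγ
      exact Finset.not_nonempty_empty (hγ.1 ▸ hγ.2.1)]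
    simp
  | insert e S he ih =>
    intro hS
    have hS' := (Finset.subset_insert _ _).trans hS
    have hZ := (ratio (U := U) (hU := hU) hE hδ0 hδ hΔ hδ1 S hS').1
    rw [sum_conns_insert he, Real.exp_add, Zf_insert he, Gf_expand S {e}
      (Finset.disjoint_singleton_left.2 he)]
    set A : ℝ := ∑ Q ∈ Ext {e} S, |w U hU (insert e Q)| * φ ^ (insert e Q).card with hA
    set X : ℝ := ∑ Q ∈ Ext {e} S, low U hU φ (insert e Q) with hX
    have hXZ : X * Zf U hU S
        ≤ ∑ Q ∈ Ext {e} S, w U hU ({e} ∪ Q) * Zf U hU (S \ near ({e} ∪ Q) S) := by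
      rw [hX, Finset.sum_mul]
      refine Finset.sum_le_sum fun Q _ => ?_
      rw [Finset.singleton_union]
      set γ := insert e Q
      obtain ⟨r1, r2⟩ := ratio_set (U := U) (hU := hU) hE hδ0 hδ hΔ hδ1 hS' (near γ S)
        (Finset.filter_subset _ _)
      have hpow : (1 + 4 * δ) ^ (near γ S).card ≤ φ ^ γ.card :=
        ((pow_le_pow_right₀ (by linarith) (hE.card_near hS' γ)).trans_eq (pow_mul _ _ _)).trans
          (pow_le_pow_left₀ (by positivity) hφ _)
      have hZ' := (ratio (U := U) (hU := hU) hE hδ0 hδ hΔ hδ1 (S \ near γ S)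
        (Finset.sdiff_subset.trans hS')).1
      unfold low
      split_ifs with h
      · rw [div_mul_eq_mul_div, div_le_iff₀ (pow_pos (by linarith) _), mul_assoc]
        refine mul_le_mul_of_nonneg_left (r2.trans ?_) h
        rw [mul_comm]
        exact mul_le_mul_of_nonneg_left hpow hZ'.le
      · rw [not_le] at h
        calc -(|w U hU γ| * φ ^ γ.card) * Zf U hU S = w U hU γ * (φ ^ γ.card * Zf U hU S) := by
              rw [abs_of_neg h]; ring
          _ ≤ _ := mul_le_mul_of_nonpos_left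
              (r1.trans (mul_le_mul_of_nonneg_right hpow hZ.le)) h.le
    have hA6 : A ≤ 6 * δ := by
      have hb : ∀ Q ∈ Ext {e} S, |w U hU (insert e Q)| * φ ^ (insert e Q).card
          ≤ 2 * δ * (2 * δ) ^ Q.card := by
        intro Q hQ
        simp only [Ext, Finset.mem_filter, Finset.mem_powerset] at hQ
        rw [Finset.card_insert_of_notMem fun h => he (hQ.1 h), ← pow_succ', mul_pow]
        refine (mul_le_mul_of_nonneg_right (abs_w_le hδ _) (by positivity)).trans ?_
        rw [Finset.card_insert_of_notMem fun h => he (hQ.1 h), mul_comm]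
        exact mul_le_mul_of_nonneg_right (pow_le_pow_left₀ (by linarith) hφ2 _) (by positivity)
      refine (Finset.sum_le_sum hb).trans ?_
      rw [← Finset.mul_sum]
      have hy : 1 + 2 * δ * (1 + 8 * δ) ^ (2 * Δ) ≤ 1 + 8 * δ := by
        have := one_add_pow_le_three (x := 8 * δ) (k := 2 * Δ) (by positivity)
          (by push_cast; linarith)
        nlinarith
      have h3 : ∑ Q ∈ Ext {e} S, (2 * δ) ^ Q.card ≤ 3 :=
        (sum_Ext_le hE (by positivity) hy S {e} hS').trans
          ((pow_le_pow_right₀ (by linarith) (by simpa using hE.card_near hS' {e})).trans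
            (one_add_pow_le_three (by positivity) (by push_cast; linarith)))
      calc _ ≤ 2 * δ * 3 := mul_le_mul_of_nonneg_left h3 (by positivity)
        _ = _ := by ring
    have hXA : |X| ≤ A := by
      refine (Finset.abs_sum_le_sum_abs _ _).trans (Finset.sum_le_sum fun Q _ => ?_)
      unfold low
      have hp : 1 ≤ φ ^ (insert e Q).card := one_le_pow₀ hφ1
      split_ifs with h
      · rw [abs_of_nonneg (div_nonneg h (by linarith)), abs_of_nonneg h]
        exact (div_le_self h hp).trans (le_mul_of_one_le_right h hp)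
      · rw [abs_neg, abs_of_nonneg (mul_nonneg (abs_nonneg _) (by linarith))]
    have hsum : ∑ Q ∈ Ext {e} S,
        (low U hU φ (insert e Q) - 12 * δ * (|w U hU (insert e Q)| * φ ^ (insert e Q).card))
        = X - 12 * δ * A := by
      rw [Finset.sum_sub_distrib, ← Finset.mul_sum]
    rw [hsum]
    have hX1 := abs_le.1 (hXA.trans hA6)
    have hsq : X ^ 2 ≤ 6 * δ * A := by
      rw [← sq_abs]
      calc |X| ^ 2 = |X| * |X| := sq _
        _ ≤ 6 * δ * A := mul_le_mul (hXA.trans hA6) hXA (abs_nonneg _) (by positivity)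
    have hexp : Real.exp (X - 12 * δ * A) ≤ 1 + X := by
      refine le_trans (Real.exp_le_exp.2 (show X - 12 * δ * A ≤ X - 2 * X ^ 2 by linarith)) ?_
      rw [← Real.le_log_iff_exp_le (by linarith)]
      have h := Real.one_sub_inv_le_log_of_pos (show 0 < 1 + X by linarith)
      refine le_trans ?_ h
      rw [inv_eq_one_div, one_sub_div (by linarith), le_div_iff₀ (by linarith)]
      nlinarith [mul_nonneg (sq_nonneg X) (show 0 ≤ 1 + 2 * X by linarith)]
    calc _ ≤ Zf U hU S * (1 + X) := mul_le_mul (ih hS') hexp (Real.exp_pos _).le hZ.le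
      _ ≤ _ := by linarith [hXZ]

end P050
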