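import Mathlib

/-!
P050: Hölder for cycles with bounded vertex weights. For a symmetric `S` and diagonals `D_k` with
entries in `[-1, 1]`, `|tr (D_0 S D_1 S ⋯ D_{2r-1} S)| ≤ tr (S ^ (2 r))`, by reflection in an axis
through two opposite vertices; also the expansion of this trace as a sum over closed paths.
-/

namespace P050

open Finset Matrix
open scoped Classical

variable {I : Type} [Fintype I] [DecidableEq I]

/-- `D_0 S D_1 S ⋯ D_{n-1} S`. -/
noncomputable def pth (S : Matrix I I ℝ) (d : ℕ → I → ℝ) : ℕ → Matrix I I ℝ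
  | 0 => 1
  | n + 1 => pth S d n * diagonal (d n) * S

/-- The squared Frobenius norm. -/
def frob (A : Matrix I I ℝ) : ℝ := ∑ i, ∑ j, A i j ^ 2

variable {S : Matrix I I ℝ}

omit [DecidableEq I] in
theorem frob_eq (A : Matrix I I ℝ) : frob A = trace (A * Aᵀ) := by
  simp [frob, trace, Matrix.mul_apply, sq]

theorem pth_add (d : ℕ → I → ℝ) (a b : ℕ) :
    pth S d (a + b) = pth S d a * pth S (fun k => d (a + k)) b := by
  induction b with
  | zero => simp [pth]
  | succ b ih =>
    show pth S d (a + b) * diagonal (d (a + b)) * S = _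
    rw [ih, pth]
    simp only [mul_assoc]

theorem pth_congr {d e : ℕ → I → ℝ} : ∀ {n : ℕ}, (∀ k < n, d k = e k) → pth S d n = pth S e n
  | 0, _ => rfl
  | n + 1, h => by
    rw [pth, pth, pth_congr fun k hk => h k (by omega), h n (by omega)]

theorem pth_transpose (hS : Sᵀ = S) (d : ℕ → I → ℝ) :
    ∀ n, (S * pth S d n)ᵀ = S * pth S (fun k => d (n - 1 - k)) n
  | 0 => by simp [pth, hS]
  | n + 1 => by
    have e : pth S (fun k => d (n + 1 - 1 - k)) (1 + n)
        = diagonal (d n) * S * pth S (fun k => d (n - 1 - k)) n := by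
      rw [pth_add]
      congr 1
      · simp [pth]
      · exact pth_congr fun k _ => by congr 1; omega
    rw [show pth S d (n + 1) = pth S d n * diagonal (d n) * S from rfl, ← mul_assoc, ← mul_assoc,
      transpose_mul, transpose_mul, hS, diagonal_transpose, pth_transpose hS d n,
      show n + 1 = 1 + n by ring]
    rw [show (fun k => d (1 + n - 1 - k)) = fun k => d (n + 1 - 1 - k) by
      funext k; congr 1; omega, e]
    simp only [mul_assoc]

theorem pth_one : ∀ n, pth S (fun _ _ => 1) n = S ^ n
  | 0 => by simp [pth]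
  | n + 1 => by rw [pth, pth_one n, diagonal_one, mul_one, pow_succ]

theorem abs_trace_diag_le {D D' : I → ℝ} (hD : ∀ i, |D i| ≤ 1) (hD' : ∀ i, |D' i| ≤ 1)
    (L R : Matrix I I ℝ) :
    |trace (diagonal D * L * (diagonal D' * R))| ≤ (frob L + frob R) / 2 := by
  have e : trace (diagonal D * L * (diagonal D' * R))
      = ∑ i, ∑ j, D i * L i j * (D' j * R j i) := by
    simp only [trace, Matrix.diag, Matrix.mul_apply, Matrix.diagonal_apply, ite_mul, zero_mul,
      Finset.sum_ite_eq, Finset.mem_univ, if_true]
  rw [e, add_div, frob, frob, Finset.sum_comm (f := fun i j => R i j ^ 2), Finset.sum_div,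
    Finset.sum_div, ← Finset.sum_add_distrib]
  refine (Finset.abs_sum_le_sum_abs _ _).trans (Finset.sum_le_sum fun i _ => ?_)
  rw [Finset.sum_div, Finset.sum_div, ← Finset.sum_add_distrib]
  refine (Finset.abs_sum_le_sum_abs _ _).trans (Finset.sum_le_sum fun j _ => ?_)
  rw [abs_mul, abs_mul, abs_mul]
  have h1 : |D i| * |L i j| ≤ |L i j| := mul_le_of_le_one_left (abs_nonneg _) (hD i)
  have h2 : |D' j| * |R j i| ≤ |R j i| := mul_le_of_le_one_left (abs_nonneg _) (hD' j)
  refine (mul_le_mul h1 h2 (by positivity) (abs_nonneg _)).trans ?_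
  nlinarith [sq_nonneg (|L i j| - |R j i|), sq_abs (L i j), sq_abs (R j i)]

variable (r : ℕ)

/-- Rotation by `a`. -/
def rot (a : ℕ) {β : Type} (c : ℕ → β) : ℕ → β := fun k => c ((k + a) % (2 * r))

/-- Reflection of the first half. -/
def refl {β : Type} (one : β) (c : ℕ → β) : ℕ → β := fun k =>
  if k = 0 ∨ k = r then one else if k < r then c k else c (2 * r - k)

variable {r}

theorem trace_rot (d : ℕ → I → ℝ) {a : ℕ} (ha : a < 2 * r) :
    trace (pth S (rot r a d) (2 * r)) = trace (pth S d (2 * r)) := by
  conv_lhs => rw [show 2 * r = (2 * r - a) + a by omega, pth_add, trace_mul_comm]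
  conv_rhs => rw [show 2 * r = a + (2 * r - a) by omega, pth_add]
  congr 2
  · refine pth_congr fun k hk => ?_
    show d ((2 * r - a + k + a) % (2 * r)) = d k
    rw [show 2 * r - a + k + a = 2 * r + k by omega, Nat.add_mod_left, Nat.mod_eq_of_lt (by omega)]
  · refine pth_congr fun k hk => ?_
    show d ((k + a) % (2 * r)) = d (a + k)
    rw [Nat.mod_eq_of_lt (by omega), add_comm]

theorem trace_refl (hS : Sᵀ = S) (hr : 1 ≤ r) (d : ℕ → I → ℝ) :
    trace (pth S (refl r (fun _ => 1) d) (2 * r))
      = frob (S * pth S (fun k => d (1 + k)) (r - 1)) := by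
  rw [frob_eq, pth_transpose hS, show 2 * r = (1 + (r - 1)) + (1 + (r - 1)) by omega, pth_add,
    pth_add, pth_add]
  have e1 : refl r (fun _ : I => (1 : ℝ)) d 0 = fun _ => 1 := by simp [refl]
  have e2 : refl r (fun _ : I => (1 : ℝ)) d (1 + (r - 1)) = fun _ => 1 := by
    simp only [refl]; rw [if_pos (Or.inr (by omega))]
  simp only [pth, one_mul, add_zero, e1, e2, diagonal_one]
  congr 2
  · congr 1
    exact pth_congr fun k hk => by
      simp only [refl]; rw [if_neg (by omega), if_pos (by omega)]
  · congr 1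
    exact pth_congr fun k hk => by
      simp only [refl]
      rw [if_neg (by omega), if_neg (by omega)]
      congr 1; omega

theorem abs_trace_le_refl (hS : Sᵀ = S) (hr : 1 ≤ r) {d : ℕ → I → ℝ} (hd : ∀ k i, |d k i| ≤ 1) :
    |trace (pth S d (2 * r))| ≤ (trace (pth S (refl r (fun _ => 1) d) (2 * r))
      + trace (pth S (refl r (fun _ => 1) (rot r r d)) (2 * r))) / 2 := by
  rw [trace_refl hS hr, trace_refl hS hr]
  have e : pth S d (2 * r) = (diagonal (d 0) * (S * pth S (fun k => d (1 + k)) (r - 1)))
      * (diagonal (d r) * (S * pth S (fun k => rot r r d (1 + k)) (r - 1))) := by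
    rw [show 2 * r = (1 + (r - 1)) + (1 + (r - 1)) by omega, pth_add, pth_add, pth_add]
    simp only [pth, one_mul, mul_assoc, add_zero, show 1 + (r - 1) = r by omega]
    congr 3
    rw [pth_congr fun k hk => ?_]
    show d (r + (1 + k)) = d ((1 + k + r) % (2 * r))
    rw [Nat.mod_eq_of_lt (by omega), add_comm]
  rw [e]
  exact abs_trace_diag_le (hd 0) (hd r) _ _

theorem count_split {β : Type} [DecidableEq β] (one : β) (c : ℕ → β) (hr : 1 ≤ r)
    (g : β → ℕ) (hg : g = fun b => if b = one then 1 else 0) :
    ∑ k ∈ range (2 * r), g (c k) = g (c 0) + g (c r)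
      + ∑ k ∈ range (r - 1), g (c (1 + k)) + ∑ k ∈ range (r - 1), g (c (r + (1 + k))) := by
  rw [show 2 * r = (1 + (r - 1)) + (1 + (r - 1)) by omega, Finset.sum_range_add,
    Finset.sum_range_add, Finset.sum_range_add]
  simp only [Finset.sum_range_one, add_zero, show 1 + (r - 1) = r by omega]
  ring

/-- Hölder for a cycle with vertex weights. -/
theorem abs_trace_le (hS : Sᵀ = S) (hr : 1 ≤ r) {d : ℕ → I → ℝ} (hd : ∀ k i, |d k i| ≤ 1) :
    |trace (pth S d (2 * r))| ≤ trace (S ^ (2 * r)) := by
  suffices h : ∀ e : ℕ → I → ℝ, (∀ k i, |e k i| ≤ 1) →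
      trace (pth S e (2 * r)) ≤ trace (S ^ (2 * r)) by
    refine abs_le.2 ⟨?_, h d hd⟩
    have := h (fun k => if k = 0 then -(d 0) else d k) fun k i => by
      split_ifs with hk
      · subst hk; simpa using hd 0 i
      · exact hd k i
    have e : pth S (fun k => if k = 0 then -(d 0) else d k) (2 * r) = -pth S d (2 * r) := by
      rw [show 2 * r = 1 + (2 * r - 1) by omega, pth_add, pth_add,
        pth_congr (d := fun k => (if 1 + k = 0 then -(d 0) else d (1 + k)))
          (e := fun k => d (1 + k)) fun k _ => by simp]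
      simp [pth]
      rw [show diagonal (-(d 0)) = -diagonal (d 0) from (Matrix.diagonal_neg (d 0)).symm, neg_mul, neg_mul]
    rw [e, trace_neg] at this
    linarith
  intro d hd
  set n := 2 * r with hn
  let cfg : (Fin n → Option (Fin n)) → ℕ → Option (Fin n) :=
    fun c k => c ⟨k % n, Nat.mod_lt _ (by omega)⟩
  let act : Option (Fin n) → I → ℝ := fun o => o.elim (fun _ => 1) fun k => d k
  let val : (Fin n → Option (Fin n)) → ℝ := fun c => trace (pth S (fun k => act (cfg c k)) n)
  have hact : ∀ o i, |act o i| ≤ 1 := fun o i => by cases o <;> simp [act, hd]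
  let g : Option (Fin n) → ℕ := fun b => if b = none then 1 else 0
  let cnt : (Fin n → Option (Fin n)) → ℕ := fun c => ∑ k ∈ range n, g (cfg c k)
  obtain ⟨c₀, -, hc₀⟩ := Finset.exists_max_image Finset.univ val ⟨fun k => some k, Finset.mem_univ _⟩
  obtain ⟨c, hc, hcnt⟩ := Finset.exists_max_image (Finset.univ.filter fun c => val c₀ ≤ val c) cnt
    ⟨c₀, by simp⟩
  simp only [Finset.mem_filter, Finset.mem_univ, true_and] at hc hcnt
  have hmax : ∀ e, val e ≤ val c := fun e => (hc₀ e (Finset.mem_univ _)).trans hc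
  have hall : ∀ k < n, cfg c k = none := by
    by_contra hcon
    push Not at hcon
    obtain ⟨a, ha, hane⟩ := hcon
    let cr : Fin n → Option (Fin n) := fun k => rot r a (cfg c) k
    have ecr : ∀ k < n, cfg cr k = rot r a (cfg c) k := fun k hk => by
      simp only [cfg, cr, Nat.mod_eq_of_lt hk]
    let c1 : Fin n → Option (Fin n) := fun k => refl r none (cfg cr) k
    let c2 : Fin n → Option (Fin n) := fun k => refl r none (rot r r (cfg cr)) k
    have hval : ∀ (e : ℕ → Option (Fin n)),
        val (fun k => refl r none e k)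
          = trace (pth S (refl r (fun _ => 1) fun k => act (e k)) n) := fun e => by
      refine congrArg trace (pth_congr fun k hk => ?_)
      simp only [cfg, Nat.mod_eq_of_lt hk, refl]
      split_ifs <;> rfl
    have hvr : val cr = val c := by
      refine (congrArg trace (pth_congr fun k hk => ?_)).trans (trace_rot (fun k => act (cfg c k)) ha)
      rw [ecr k hk]; rfl
    have hle := (le_abs_self _).trans (abs_trace_le_refl (S := S) hS hr
      (d := fun k => act (cfg cr k)) fun k i => hact _ i)
    have h1 : val c1 = trace (pth S (refl r (fun _ => 1) fun k => act (cfg cr k)) n) := hval _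
    have h2 : val c2
        = trace (pth S (refl r (fun _ => 1) (rot r r fun k => act (cfg cr k))) n) :=
      hval (rot r r (cfg cr))
    rw [← h1, ← h2] at hle
    have hle' : val c ≤ (val c1 + val c2) / 2 := hvr ▸ hle
    have t1 := hcnt c1 (hc.trans (by linarith [hmax c2]))
    have t2 := hcnt c2 (hc.trans (by linarith [hmax c1]))
    have split := fun e => count_split (r := r) (β := Option (Fin n)) none e hr g rfl
    have hcr : cnt cr = cnt c := by
      simp only [cnt]
      rw [Finset.sum_congr rfl fun k hk => by rw [ecr k (Finset.mem_range.1 hk)]]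
      simp only [rot, hn]
      rw [show 2 * r = (2 * r - a) + a by omega, Finset.sum_range_add,
        show (2 * r - a) + a = a + (2 * r - a) by omega, Finset.sum_range_add, add_comm]
      congr 1
      · refine Finset.sum_congr rfl fun k hk => ?_
        rw [Finset.mem_range] at hk
        rw [show 2 * r - a + k + a = (a + (2 * r - a)) + k by omega, Nat.add_mod_left,
          Nat.mod_eq_of_lt (by omega)]
      · refine Finset.sum_congr rfl fun k hk => ?_
        rw [Finset.mem_range] at hk
        rw [Nat.mod_eq_of_lt (by omega), add_comm k]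
    have g0 : g (cfg cr 0) = 0 := by
      rw [ecr 0 (by omega)]
      simp only [g, rot, zero_add, ← hn, Nat.mod_eq_of_lt ha, if_neg hane]
    have hrefl : ∀ e : ℕ → Option (Fin n), cnt (fun k => refl r none e k)
        = 2 + 2 * ∑ k ∈ range (r - 1), g (e (1 + k)) := fun e => by
      have hcfg : ∀ k < n, cfg (fun k => refl r none e k) k = refl r none e k := fun k hk => by
        simp only [cfg, Nat.mod_eq_of_lt hk]
      simp only [cnt]
      rw [split, hcfg 0 (by omega), hcfg r (by omega)]
      have hL : ∑ k ∈ range (r - 1), g (cfg (fun k => refl r none e k) (1 + k))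
          = ∑ k ∈ range (r - 1), g (e (1 + k)) := Finset.sum_congr rfl fun k hk => by
        rw [Finset.mem_range] at hk
        rw [hcfg _ (by omega), refl, if_neg (by omega), if_pos (by omega)]
      have hR : ∑ k ∈ range (r - 1), g (cfg (fun k => refl r none e k) (r + (1 + k)))
          = ∑ k ∈ range (r - 1), g (e (1 + (r - 1 - 1 - k))) := Finset.sum_congr rfl fun k hk => by
        rw [Finset.mem_range] at hk
        rw [hcfg _ (by omega), refl, if_neg (by omega), if_neg (by omega)]
        congr 2; omega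
      rw [hL, hR]
      rw [Finset.sum_range_reflect (fun k => g (e (1 + k))) (r - 1)]
      simp [refl, g]
      ring
    have b1 : cnt c1 = 2 + 2 * ∑ k ∈ range (r - 1), g (cfg cr (1 + k)) := hrefl _
    have b2 : cnt c2 = 2 + 2 * ∑ k ∈ range (r - 1), g (cfg cr (r + (1 + k))) := by
      rw [show cnt c2 = _ from hrefl _]
      congr 2
      refine Finset.sum_congr rfl fun k hk => ?_
      rw [Finset.mem_range] at hk
      show g (cfg cr ((1 + k + r) % (2 * r))) = _
      rw [Nat.mod_eq_of_lt (by omega), add_comm]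
    have b0 : cnt cr = g (cfg cr 0) + g (cfg cr r)
        + ∑ k ∈ range (r - 1), g (cfg cr (1 + k)) + ∑ k ∈ range (r - 1), g (cfg cr (r + (1 + k))) :=
      split _
    have g1 : g (cfg cr r) ≤ 1 := by simp only [g]; split_ifs <;> omega
    omega
  calc trace (pth S d n) = val fun k => some k := congrArg trace (pth_congr fun k hk => by
        simp [cfg, act, Nat.mod_eq_of_lt hk])
    _ ≤ val c := hmax _
    _ = trace (S ^ n) := by
        rw [← pth_one]
        exact congrArg trace (pth_congr fun k hk => by rw [hall k hk]; rfl)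

theorem trace_pow_two_mul (hS : Sᵀ = S) (r : ℕ) : trace (S ^ (2 * r)) = frob (S ^ r) := by
  rw [frob_eq, transpose_pow, hS, ← pow_add, two_mul]

theorem trace_pow_nonneg (hS : Sᵀ = S) (r : ℕ) : 0 ≤ trace (S ^ (2 * r)) := by
  rw [trace_pow_two_mul hS, frob]; positivity

theorem trace_pow_succ_le (hS : Sᵀ = S) (r : ℕ) :
    trace (S ^ (2 * (r + 1))) ≤ frob S * trace (S ^ (2 * r)) := by
  rw [trace_pow_two_mul hS, trace_pow_two_mul hS, pow_succ']
  simp only [frob, Matrix.mul_apply]
  calc ∑ i, ∑ j, (∑ k, S i k * (S ^ r) k j) ^ 2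
      ≤ ∑ i, ∑ j, (∑ k, S i k ^ 2) * ∑ k, (S ^ r) k j ^ 2 :=
        Finset.sum_le_sum fun i _ => Finset.sum_le_sum fun j _ =>
          Finset.sum_mul_sq_le_sq_mul_sq _ _ _
    _ = _ := by
        simp only [← Finset.mul_sum, ← Finset.sum_mul]
        rw [Finset.sum_comm (f := fun j k => (S ^ r) k j ^ 2)]

/-- The entries of `pth` as sums over paths. -/
theorem pth_apply (d : ℕ → I → ℝ) : ∀ (n : ℕ) (i j : I), pth S d n i j
    = ∑ z : Fin (n + 1) → I, if z 0 = i ∧ z (Fin.last n) = j
        then ∏ k : Fin n, d k (z k.castSucc) * S (z k.castSucc) (z k.succ) else 0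
  | 0, i, j => by
    rw [← (Equiv.funUnique (Fin 1) I).symm.sum_comp]
    simp only [pth, Matrix.one_apply, Equiv.funUnique_symm_apply, uniqueElim_const,
      Finset.univ_eq_empty, Finset.prod_empty]
    by_cases h : i = j
    · subst h; simp
    · rw [if_neg h]
      exact (Finset.sum_eq_zero fun x _ => if_neg fun e => h (e.1.symm.trans e.2)).symm
  | n + 1, i, j => by
    rw [pth, ← (Fin.snocEquiv fun _ : Fin (n + 1 + 1) => I).sum_comp, Fintype.sum_prod_type,
      Matrix.mul_apply]
    simp only [Matrix.mul_diagonal, pth_apply d n, Finset.sum_mul]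
    conv_lhs => rw [Finset.sum_comm]
    conv_rhs => rw [Finset.sum_comm]
    refine Finset.sum_congr rfl fun z _ => ?_
    simp only [Fin.snocEquiv_apply, ite_mul, zero_mul]
    rw [Finset.sum_eq_single (z (Fin.last n)), Finset.sum_eq_single j]
    · simp only [Fin.snoc_last, ← Fin.castSucc_zero, Fin.snoc_castSucc, and_true,
        Fin.prod_univ_castSucc, Fin.val_last, Fin.val_castSucc, Fin.succ_castSucc, Fin.succ_last]
      split_ifs <;> ring
    · intro b _ hb
      simp [hb]
    · simp
    · intro b _ hb
      rw [if_neg fun e => hb e.2.symm]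
    · simp

/-- The trace as a sum over closed paths. -/
theorem trace_pth (d : ℕ → I → ℝ) (n : ℕ) :
    trace (pth S d (n + 1))
      = ∑ z : Fin (n + 1) → I, ∏ k : Fin (n + 1), d k (z k) * S (z k) (z (k + 1)) := by
  simp only [trace, Matrix.diag, pth_apply]
  rw [Finset.sum_comm, ← (Fin.snocEquiv fun _ : Fin (n + 1 + 1) => I).sum_comp,
    Fintype.sum_prod_type, Finset.sum_comm]
  refine Finset.sum_congr rfl fun z _ => ?_
  simp only [Fin.snocEquiv_apply, Fin.snoc_last, ← Fin.castSucc_zero, Fin.snoc_castSucc]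
  rw [Finset.sum_eq_single (z 0), Finset.sum_eq_single (z 0), if_pos ⟨rfl, rfl⟩]
  · refine Finset.prod_congr rfl fun k _ => ?_
    congr 2
    induction k using Fin.lastCases with
    | last => simp
    | cast k => rw [Fin.succ_castSucc, Fin.snoc_castSucc, Fin.coeSucc_eq_succ]
  · intro b _ hb
    simp [Ne.symm hb]
  · simp
  · intro b _ hb
    exact Finset.sum_eq_zero fun a _ => if_neg fun e => hb (e.2.trans e.1.symm)
  · simp

end P050
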