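import Vale.Agent.P050.Polymer
import Vale.Agent.P050.Trace

/-!
P050: the weights of the connected edge sets. Two leaves give `δ ^ (k - 2) * dev2`, a chordless cycle
of length `2 r` gives `δ ^ (k - 2 r) * trace (kmat ^ (2 r))`; in a bipartite graph every finite edge
set has one of the two.
-/

namespace P050

open Finset Fin.NatCast
open scoped Classical

variable {V I : Type} [Fintype V] [DecidableEq V] [Fintype I] [Nonempty I] [DecidableEq I]

/-- The row means. -/
noncomputable def rmean (U : I → I → ℝ) (i : I) : ℝ := (∑ j, U i j) / (Fintype.card I : ℝ)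

/-- The mean square of the row means. -/
noncomputable def dev2 (U : I → I → ℝ) : ℝ := (∑ i, rmean U i ^ 2) / (Fintype.card I : ℝ)

/-- The kernel as an operator. -/
noncomputable def kmat (U : I → I → ℝ) : Matrix I I ℝ :=
  Matrix.of fun i j => U i j / (Fintype.card I : ℝ)

variable {U : I → I → ℝ} {hU : ∀ i j, U i j = U j i} {δ : ℝ}

omit [Nonempty I] [DecidableEq I] in
theorem kmat_symm (hU : ∀ i j, U i j = U j i) : (kmat U).transpose = kmat U :=
  Matrix.ext fun i j => by simp [kmat, hU j i]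

theorem frob_kmat_le (h : ∀ i j, |U i j| ≤ δ) : frob (kmat U) ≤ δ ^ 2 := by
  have hK : (0 : ℝ) < Fintype.card I := by exact_mod_cast Fintype.card_pos
  calc frob (kmat U) ≤ ∑ _i : I, ∑ _j : I, δ ^ 2 / (Fintype.card I : ℝ) ^ 2 := by
        refine Finset.sum_le_sum fun i _ => Finset.sum_le_sum fun j _ => ?_
        rw [kmat, Matrix.of_apply, div_pow, ← sq_abs (U i j)]
        exact div_le_div_of_nonneg_right (pow_le_pow_left₀ (abs_nonneg _) (h i j) 2) (sq_nonneg _)
    _ = δ ^ 2 := by simp only [Finset.sum_const, Finset.card_univ, nsmul_eq_mul]; field_simp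

theorem abs_rmean_le (h : ∀ i j, |U i j| ≤ δ) (i : I) : |rmean U i| ≤ δ := by
  have hK : (0 : ℝ) < Fintype.card I := by exact_mod_cast Fintype.card_pos
  rw [rmean, abs_div, abs_of_pos hK, div_le_iff₀ hK]
  refine (Finset.abs_sum_le_sum_abs _ _).trans ((Finset.sum_le_sum fun j _ => h i j).trans ?_)
  simp [mul_comm]

theorem dev2_nonneg : 0 ≤ dev2 U := by unfold dev2; positivity

/-! ### Leaves -/

omit [DecidableEq I] in
theorem av_leaf {u v : V} (huv : u ≠ v) {F : (V → I) → ℝ}
    (hF : ∀ f i, F (Function.update f v i) = F f) :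
    av (fun f => U (f u) (f v) * F f) = av fun f => rmean U (f u) * F f := by
  rw [← av_resample {v} fun f => U (f u) (f v) * F f]
  refine congrArg av (funext fun f => ?_)
  have e : ∀ g : V → I, ({v} : Finset V).piecewise g f = Function.update f v (g v) := fun g => by
    rw [Finset.piecewise_singleton]
  simp only [e, Function.update_self, Function.update_of_ne huv, hF]
  rw [av_coord v fun i => U (f u) i * F f, ← Finset.sum_mul, rmean]
  ring

theorem mem_mk_other {v : V} {e : Sym2 V} (h : v ∈ e) (hd : ¬e.IsDiag) :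
    ∃ u, u ≠ v ∧ e = s(u, v) := by
  induction e using Sym2.ind with
  | h a b =>
    rw [Sym2.mk_isDiag_iff] at hd
    rcases Sym2.mem_iff.1 h with rfl | rfl
    · exact ⟨b, Ne.symm hd, Sym2.eq_swap⟩
    · exact ⟨a, hd, rfl⟩

theorem prod_update {γ : Finset (Sym2 V)} {v : V} (h : ∀ b ∈ γ, v ∉ b) (f : V → I) (i : I) :
    ∏ b ∈ γ, ev U hU (Function.update f v i) b = ∏ b ∈ γ, ev U hU f b :=
  Finset.prod_congr rfl fun b hb => ev_congr U hU fun x hx =>
    Function.update_of_ne (by rintro rfl; exact h b hb hx) _ _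

/-- Two leaves. -/
theorem w_two_leaves {γ : Finset (Sym2 V)} (hd : ∀ b ∈ γ, ¬b.IsDiag) {a b : Sym2 V} {v v' : V}
    (hab : a ≠ b) (ha : a ∈ γ) (hb : b ∈ γ) (hva : v ∈ a) (hvb : v' ∈ b)
    (hv : ∀ c ∈ γ, v ∈ c → c = a) (hv' : ∀ c ∈ γ, v' ∈ c → c = b) :
    ∃ u u' : V, s(u, v) = a ∧ s(u', v') = b ∧
      w U hU γ = av fun f =>
        rmean U (f u) * rmean U (f u') * ∏ c ∈ (γ.erase a).erase b, ev U hU f c := by
  obtain ⟨u, hu, rfl⟩ := mem_mk_other hva (hd a ha)
  obtain ⟨u', hu', rfl⟩ := mem_mk_other hvb (hd b hb)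
  refine ⟨u, u', rfl, rfl, ?_⟩
  have hne : u ≠ v' := fun h => hab (hv' _ ha (by simp [h]))
  have e1 : w U hU γ
      = av fun f => U (f u) (f v) * ∏ c ∈ γ.erase s(u, v), ev U hU f c := by
    refine congrArg av (funext fun f => ?_)
    rw [← Finset.mul_prod_erase γ _ ha, ev_mk]
  have e2 : ∀ f : V → I, ∏ c ∈ γ.erase s(u, v), ev U hU f c
      = U (f u') (f v') * ∏ c ∈ (γ.erase s(u, v)).erase s(u', v'), ev U hU f c := fun f => by
    rw [← Finset.mul_prod_erase _ _ (Finset.mem_erase.2 ⟨hab.symm, hb⟩), ev_mk]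
  rw [e1, av_leaf hu fun f i => prod_update (fun c hc hvc =>
    Finset.ne_of_mem_erase hc (hv c (Finset.mem_of_mem_erase hc) hvc)) f i]
  calc av (fun f => rmean U (f u) * ∏ c ∈ γ.erase s(u, v), ev U hU f c)
      = av (fun f => U (f u') (f v') * (rmean U (f u)
          * ∏ c ∈ (γ.erase s(u, v)).erase s(u', v'), ev U hU f c)) :=
        congrArg av (funext fun f => by rw [e2]; ring)
    _ = av (fun f => rmean U (f u') * (rmean U (f u)
          * ∏ c ∈ (γ.erase s(u, v)).erase s(u', v'), ev U hU f c)) := by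
        refine av_leaf hu' fun f i => ?_
        rw [Function.update_of_ne hne, prod_update fun c hc hvc => ?_]
        simp only [Finset.mem_erase] at hc
        exact hc.1 (hv' c hc.2.2 hvc)
    _ = _ := congrArg av (funext fun f => by ring)

theorem abs_w_leaves (h : ∀ i j, |U i j| ≤ δ) {γ : Finset (Sym2 V)}
    (hd : ∀ b ∈ γ, ¬b.IsDiag) {a b : Sym2 V} {v v' : V} (hab : a ≠ b) (ha : a ∈ γ) (hb : b ∈ γ)
    (hva : v ∈ a) (hvb : v' ∈ b) (hv : ∀ c ∈ γ, v ∈ c → c = a) (hv' : ∀ c ∈ γ, v' ∈ c → c = b) :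
    |w U hU γ| ≤ δ ^ (γ.card - 2) * dev2 U := by
  obtain ⟨u, u', -, -, e⟩ := w_two_leaves (U := U) (hU := hU) hd hab ha hb hva hvb hv hv'
  rw [e]
  have hδ : 0 ≤ δ := (abs_nonneg _).trans (h (Classical.arbitrary I) (Classical.arbitrary I))
  refine (abs_av_le (G := fun f => δ ^ (γ.card - 2) / 2
    * (rmean U (f u) ^ 2 + rmean U (f u') ^ 2)) fun f => ?_).trans (le_of_eq ?_)
  · rw [abs_mul, abs_mul]
    have h1 : |∏ c ∈ (γ.erase a).erase b, ev U hU f c| ≤ δ ^ (γ.card - 2) := by
      rw [Finset.abs_prod, show γ.card - 2 = ((γ.erase a).erase b).card by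
        rw [Finset.card_erase_of_mem (Finset.mem_erase.2 ⟨hab.symm, hb⟩),
          Finset.card_erase_of_mem ha]; omega, ← Finset.prod_const]
      exact Finset.prod_le_prod (fun c _ => abs_nonneg _) fun c _ => abs_ev_le h f c
    refine (mul_le_mul_of_nonneg_left h1 (by positivity)).trans ?_
    rw [div_mul_eq_mul_div, le_div_iff₀ two_pos]
    have := two_mul_le_add_sq |rmean U (f u)| |rmean U (f u')|
    rw [sq_abs, sq_abs] at this
    nlinarith [mul_le_mul_of_nonneg_left this (pow_nonneg hδ (γ.card - 2))]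
  · rw [av_mul, av_add, av_coord u fun i => rmean U i ^ 2, av_coord u' fun i => rmean U i ^ 2, dev2]
    ring

theorem w_single (hmean : ∑ i, ∑ j, U i j = 0) {a : Sym2 V} (hd : ¬a.IsDiag) :
    w U hU {a} = 0 := by
  induction a using Sym2.ind with
  | h u v =>
    rw [Sym2.mk_isDiag_iff] at hd
    have e : w U hU {s(u, v)} = av fun f => U (f u) (f v) * 1 :=
      congrArg av (funext fun f => by simp)
    rw [e, av_leaf hd fun _ _ => rfl]
    simp only [mul_one]
    rw [av_coord u (rmean U)]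
    simp only [rmean, ← Finset.sum_div, hmean, zero_div]

theorem w_path {a b : Sym2 V} (hab : a ≠ b) (ha : ¬a.IsDiag) (hb : ¬b.IsDiag) (h : Touch a b) :
    w U hU {a, b} = dev2 U := by
  obtain ⟨x, hxa, hxb⟩ := h
  obtain ⟨v, hv, rfl⟩ := mem_mk_other hxa ha
  obtain ⟨v', hv', rfl⟩ := mem_mk_other hxb hb
  have hvv : v ≠ v' := fun e => hab (by rw [e])
  obtain ⟨u, u', e1, e2, e⟩ := w_two_leaves (U := U) (hU := hU) (γ := {s(v, x), s(v', x)})
    (a := s(v, x)) (b := s(v', x)) (v := v) (v' := v')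
    (by simp only [Finset.mem_insert, Finset.mem_singleton]; rintro c (rfl | rfl) <;> assumption)
    hab (by simp) (by simp) (by simp) (by simp)
    (by
      simp only [Finset.mem_insert, Finset.mem_singleton]
      rintro c (rfl | rfl) hc
      · rfl
      · exact absurd (Sym2.mem_iff.1 hc) (by rintro (h | h) <;> contradiction))
    (by
      simp only [Finset.mem_insert, Finset.mem_singleton]
      rintro c (rfl | rfl) hc
      · exact absurd (Sym2.mem_iff.1 hc) (by rintro (h | h); exacts [hvv h.symm, hv' h])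
      · rfl)
  have hu : u = x := by
    rcases Sym2.eq_iff.1 e1 with ⟨h1, h2⟩ | ⟨h1, -⟩
    · exact absurd h2 hv
    · exact h1
  have hu' : u' = x := by
    rcases Sym2.eq_iff.1 e2 with ⟨h1, h2⟩ | ⟨h1, -⟩
    · exact absurd h2 hv'
    · exact h1
  rw [e, hu, hu', show ((({s(v, x), s(v', x)} : Finset (Sym2 V)).erase s(v, x)).erase s(v', x)) = ∅ by
    ext c; simp only [Finset.mem_erase, Finset.mem_insert, Finset.mem_singleton, Finset.notMem_empty]
    tauto]
  simp only [Finset.prod_empty, mul_one, ← sq]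
  rw [av_coord x fun i => rmean U i ^ 2, dev2]

/-! ### Cycles -/

/-- A cycle with the `n + 1` vertices `c`. -/
structure Cyc (γ : Finset (Sym2 V)) (n : ℕ) (c : Fin (n + 1) → V) : Prop where
  two_le : 2 ≤ n
  inj : Function.Injective c
  mem : ∀ k, s(c k, c (k + 1)) ∈ γ

/-- The edges of a cycle. -/
def cedges {n : ℕ} (c : Fin (n + 1) → V) : Finset (Sym2 V) :=
  univ.image fun k => s(c k, c (k + 1))

theorem succ_ne {n : ℕ} (hn : 2 ≤ n) (k : Fin (n + 1)) : k + 1 ≠ k ∧ k + 1 + 1 ≠ k := by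
  have h : ∀ j : Fin (n + 1), k + j = k → j = 0 := fun j h => by simpa using h
  constructor <;> intro e
  · have := h 1 e
    rw [Fin.ext_iff, Fin.val_one', Fin.val_zero, Nat.mod_eq_of_lt (by omega)] at this
    omega
  · have := h (1 + 1) (by rw [← add_assoc]; exact e)
    rw [Fin.ext_iff, Fin.val_add, Fin.val_one', Fin.val_zero, Nat.mod_eq_of_lt (by omega : 1 < n + 1),
      Nat.mod_eq_of_lt (by omega : 1 + 1 < n + 1)] at this
    omega

theorem Cyc.edge_inj {γ : Finset (Sym2 V)} {n : ℕ} {c : Fin (n + 1) → V} (h : Cyc γ n c) :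
    Function.Injective fun k => s(c k, c (k + 1)) := by
  intro k l e
  rcases Sym2.eq_iff.1 e with ⟨e1, -⟩ | ⟨e1, e2⟩
  · exact h.inj e1
  · have a := h.inj e1
    have b := h.inj e2
    rw [a] at b
    exact absurd b (succ_ne h.two_le l).2

theorem Cyc.card_cedges {γ : Finset (Sym2 V)} {n : ℕ} {c : Fin (n + 1) → V} (h : Cyc γ n c) :
    (cedges c).card = n + 1 := by
  rw [cedges, Finset.card_image_of_injective _ h.edge_inj, Finset.card_univ, Fintype.card_fin]

theorem Cyc.sub {γ : Finset (Sym2 V)} {n : ℕ} {c : Fin (n + 1) → V} (h : Cyc γ n c) :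
    cedges c ⊆ γ := by
  intro e he
  obtain ⟨k, -, rfl⟩ := Finset.mem_image.1 he
  exact h.mem k

theorem Cyc.conn {γ : Finset (Sym2 V)} {n : ℕ} {c : Fin (n + 1) → V} (h : Cyc γ n c) :
    Conn (cedges c) := by
  refine ⟨Finset.univ_nonempty.image _, fun P hP hPne => ?_⟩
  have hmem : ∀ k, s(c k, c (k + 1)) ∈ cedges c := fun k => Finset.mem_image_of_mem _ (mem_univ k)
  obtain ⟨k, hk, hk'⟩ : ∃ k, s(c k, c (k + 1)) ∈ P ∧ s(c (k + 1), c (k + 1 + 1)) ∉ P := by
    by_contra hcon
    push Not at hcon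
    obtain ⟨p, hp⟩ := hPne
    obtain ⟨k0, -, rfl⟩ := Finset.mem_image.1 (hP.1 hp)
    have hall : ∀ j : ℕ, s(c (k0 + (j : Fin (n + 1))), c (k0 + (j : Fin (n + 1)) + 1)) ∈ P := by
      intro j
      induction j with
      | zero => simpa using hp
      | succ j ih => simpa [add_assoc] using hcon _ ih
    refine hP.2 fun e he => ?_
    obtain ⟨k, -, rfl⟩ := Finset.mem_image.1 he
    have := hall (k - k0).val
    rwa [Fin.cast_val_eq_self, add_sub_cancel] at this
  exact ⟨_, Finset.mem_sdiff.2 ⟨hmem _, hk'⟩, _, hk, c (k + 1), by simp, by simp⟩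

omit [Nonempty I] [DecidableEq I] in
theorem av_comp [Nonempty I] {n : ℕ} {c : Fin n → V} (hc : Function.Injective c)
    (φ : (Fin n → I) → ℝ) :
    av (fun g : V → I => φ (g ∘ c)) = (∑ z, φ z) / (Fintype.card I : ℝ) ^ n := by
  have hI : (0 : ℝ) < (Fintype.card I : ℝ) ^ n := pow_pos (by exact_mod_cast Fintype.card_pos) _
  have hV := card_pos' (V := V) (I := I)
  let e : (V → I) × (Fin n → I) ≃ (V → I) × (Fin n → I) :=
    { toFun := fun q => (Function.extend c q.2 q.1, q.1 ∘ c)
      invFun := fun q => (Function.extend c q.2 q.1, q.1 ∘ c)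
      left_inv := fun q => by
        refine Prod.ext (funext fun v => ?_) (funext fun k => hc.extend_apply _ _ k)
        by_cases hv : ∃ k, c k = v
        · obtain ⟨k, rfl⟩ := hv
          exact hc.extend_apply _ _ k
        · simp [Function.extend_apply' _ _ _ hv]
      right_inv := fun q => by
        refine Prod.ext (funext fun v => ?_) (funext fun k => hc.extend_apply _ _ k)
        by_cases hv : ∃ k, c k = v
        · obtain ⟨k, rfl⟩ := hv
          exact hc.extend_apply _ _ k
        · simp [Function.extend_apply' _ _ _ hv] }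
  have h1 : ∑ q : (V → I) × (Fin n → I), φ (q.1 ∘ c) = ∑ q : (V → I) × (Fin n → I), φ q.2 :=
    Equiv.sum_comp e fun q => φ q.2
  rw [Fintype.sum_prod_type, Fintype.sum_prod_type] at h1
  simp only [Finset.sum_const, Finset.card_univ, nsmul_eq_mul, ← Finset.mul_sum, Fintype.card_fun,
    Fintype.card_fin, Nat.cast_pow] at h1
  rw [av]
  field_simp
  linarith

/-- A chordless cycle with bounded attachments. -/
theorem abs_w_cycle (hδ0 : 0 < δ) (h : ∀ i j, |U i j| ≤ δ) {γ : Finset (Sym2 V)} {n r : ℕ}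
    {c : Fin (n + 1) → V} (hc : Cyc γ n c) (hr : n + 1 = 2 * r)
    (hch : ∀ b ∈ γ, ∀ k l, c k ∈ b → c l ∈ b → k ≠ l → b ∈ cedges c) :
    |w U hU γ| ≤ δ ^ (γ.card - 2 * r) * Matrix.trace (kmat U ^ (2 * r)) := by
  set rest := γ \ cedges c with hrest
  set att : Fin (n + 1) → Finset (Sym2 V) := fun k => rest.filter (c k ∈ ·) with hatt
  set free := rest.filter (fun b => ∀ k, c k ∉ b) with hfree
  have hdis : ((univ : Finset (Fin (n + 1))) : Set (Fin (n + 1))).PairwiseDisjoint att := by
    intro k _ l _ hkl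
    rw [Function.onFun, Finset.disjoint_left]
    intro b hb hb'
    simp only [hatt, hrest, Finset.mem_filter, Finset.mem_sdiff] at hb hb'
    exact hb.1.2 (hch b hb.1.1 k l hb.2 hb'.2 hkl)
  have hsplit : rest = free ∪ univ.biUnion att := by
    ext b
    simp only [hfree, hatt, Finset.mem_union, Finset.mem_filter, Finset.mem_biUnion,
      Finset.mem_univ, true_and]
    constructor
    · intro hb
      by_cases hk : ∃ k, c k ∈ b
      · obtain ⟨k, hk⟩ := hk; exact Or.inr ⟨k, hb, hk⟩
      · exact Or.inl ⟨hb, fun k hk' => hk ⟨k, hk'⟩⟩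
    · rintro (⟨hb, -⟩ | ⟨k, hb, -⟩) <;> exact hb
  have hdisj : Disjoint free (univ.biUnion att) := by
    rw [Finset.disjoint_left]
    intro b hb hb'
    obtain ⟨k, -, hk⟩ := Finset.mem_biUnion.1 hb'
    exact (Finset.mem_filter.1 hb).2 k (Finset.mem_filter.1 hk).2
  have hcard : free.card + ∑ k, (att k).card = γ.card - 2 * r := by
    rw [← Finset.card_biUnion hdis, ← Finset.card_union_of_disjoint hdisj, ← hsplit, hrest,
      Finset.card_sdiff_of_subset hc.sub, hc.card_cedges, hr]
  rw [w, ← av_resample (univ.image c)]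
  refine (abs_av_le (G := fun _ => δ ^ (γ.card - 2 * r) * Matrix.trace (kmat U ^ (2 * r)))
    fun f => ?_).trans_eq (av_const _)
  set d : Fin (n + 1) → I → ℝ :=
    fun k x => ∏ b ∈ att k, ev U hU (Function.update f (c k) x) b with hd
  set C := ∏ b ∈ free, ev U hU f b
  have hg : ∀ g : V → I, ∏ b ∈ γ, ev U hU ((univ.image c).piecewise g f) b
      = C * ∏ k, d k ((g ∘ c) k) * U ((g ∘ c) k) ((g ∘ c) (k + 1)) := fun g => by
    set h' := (univ.image c).piecewise g f
    have hin : ∀ k, h' (c k) = g (c k) := fun k => by simp [h']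
    have hout : ∀ x, (∀ k, c k ≠ x) → h' x = f x := fun x hx => by
      simp [h', Finset.piecewise, hx]
    rw [← Finset.prod_sdiff hc.sub, ← hrest, hsplit, Finset.prod_union hdisj,
      Finset.prod_biUnion hdis, cedges, Finset.prod_image hc.edge_inj.injOn, Finset.prod_mul_distrib,
      mul_assoc]
    congr 1
    · refine Finset.prod_congr rfl fun b hb => ev_congr U hU fun x hx => hout x fun k hk => ?_
      exact (Finset.mem_filter.1 hb).2 k (hk ▸ hx)
    congr 1
    · refine Finset.prod_congr rfl fun k _ => Finset.prod_congr rfl fun b hb =>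
        ev_congr U hU fun x hx => ?_
      by_cases hxk : x = c k
      · subst hxk; simp [hin]
      · rw [Function.update_of_ne hxk]
        refine hout x fun l hl => ?_
        have hb' := hb
        simp only [hatt, hrest, Finset.mem_filter, Finset.mem_sdiff] at hb
        refine hb.1.2 (hch b hb.1.1 k l hb.2 (hl ▸ hx) ?_)
        rintro rfl
        exact hxk hl.symm
    · exact Finset.prod_congr rfl fun k _ => by simp [hin]
  simp only [hg]
  rw [av_mul, abs_mul, av_comp hc.inj fun z => ∏ k, d k (z k) * U (z k) (z (k + 1))]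
  have hC : |C| ≤ δ ^ free.card := by
    rw [Finset.abs_prod, ← Finset.prod_const]
    exact Finset.prod_le_prod (fun b _ => abs_nonneg _) fun b _ => abs_ev_le h f b
  have hdb : ∀ k x, |d k x| ≤ δ ^ (att k).card := fun k x => by
    rw [hd, Finset.abs_prod, ← Finset.prod_const]
    exact Finset.prod_le_prod (fun b _ => abs_nonneg _) fun b _ => abs_ev_le h _ b
  set d' : ℕ → I → ℝ :=
    fun k x => if hk : k < n + 1 then d ⟨k, hk⟩ x / δ ^ (att ⟨k, hk⟩).card else 1
  have hd' : ∀ k x, |d' k x| ≤ 1 := fun k x => by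
    simp only [d']
    split_ifs with hk
    · rw [abs_div, abs_of_pos (pow_pos hδ0 _), div_le_one (pow_pos hδ0 _)]
      exact hdb _ x
    · simp
  have e : (∑ z : Fin (n + 1) → I, ∏ k, d k (z k) * U (z k) (z (k + 1)))
      / (Fintype.card I : ℝ) ^ (n + 1)
      = δ ^ (∑ k, (att k).card) * Matrix.trace (pth (kmat U) d' (2 * r)) := by
    rw [← hr, trace_pth, Finset.mul_sum, Finset.sum_div]
    refine Finset.sum_congr rfl fun z _ => ?_
    rw [← Finset.prod_pow_eq_pow_sum, ← Finset.prod_mul_distrib,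
      show (Fintype.card I : ℝ) ^ (n + 1) = ∏ _k : Fin (n + 1), (Fintype.card I : ℝ) by simp,
      ← Finset.prod_div_distrib]
    refine Finset.prod_congr rfl fun k _ => ?_
    simp only [d', dif_pos k.isLt, kmat, Matrix.of_apply]
    have := pow_pos hδ0 (att k).card
    field_simp
  rw [e, abs_mul, abs_of_pos (pow_pos hδ0 _), ← mul_assoc, ← hcard, pow_add]
  exact mul_le_mul (mul_le_mul_of_nonneg_right hC (pow_nonneg hδ0.le _))
    (abs_trace_le (kmat_symm hU) (by have := hc.two_le; omega) hd') (abs_nonneg _) (by positivity)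

/-- The weight of a cycle. -/
theorem w_cycle {γ : Finset (Sym2 V)} {n r : ℕ} {c : Fin (n + 1) → V} (hc : Cyc γ n c)
    (hr : n + 1 = 2 * r) : w U hU (cedges c) = Matrix.trace (kmat U ^ (2 * r)) := by
  have e : w U hU (cedges c)
      = av fun g : V → I => ∏ k, U ((g ∘ c) k) ((g ∘ c) (k + 1)) :=
    congrArg av (funext fun g => by
      rw [cedges, Finset.prod_image hc.edge_inj.injOn]; rfl)
  rw [e, av_comp hc.inj fun z => ∏ k, U (z k) (z (k + 1)), ← pth_one, ← hr, trace_pth,
    Finset.sum_div]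
  refine Finset.sum_congr rfl fun z _ => ?_
  simp only [one_mul, kmat, Matrix.of_apply, Finset.prod_div_distrib]
  simp

/-- A path in an edge set. -/
def IsPathIn (γ : Finset (Sym2 V)) (n : ℕ) (p : ℕ → V) : Prop :=
  Set.InjOn p (Set.Iic n) ∧ ∀ i < n, s(p i, p (i + 1)) ∈ γ

omit [Fintype V] in
theorem cyc_of_closed {γ : Finset (Sym2 V)} {n : ℕ} (p : ℕ → V) (hn : 2 ≤ n)
    (hinj : Set.InjOn p (Set.Iic n)) (hmem : ∀ i < n, s(p i, p (i + 1)) ∈ γ)
    (hclose : s(p n, p 0) ∈ γ) : Cyc γ n fun k : Fin (n + 1) => p k := by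
  refine ⟨hn, fun k l e => Fin.ext (hinj (by simp; omega) (by simp; omega) e), fun k => ?_⟩
  induction k using Fin.lastCases with
  | last => simpa using hclose
  | cast i => rw [Fin.coeSucc_eq_succ]; simpa using hmem i i.isLt

/-- Without two leaves there is a cycle. -/
theorem exists_cyc {γ : Finset (Sym2 V)} (hd : ∀ b ∈ γ, ¬b.IsDiag) (hne : γ.Nonempty)
    (hleaf : ∀ v v', v ≠ v' → 2 ≤ (γ.filter (v ∈ ·)).card ∨ (γ.filter (v ∈ ·)).card = 0 ∨
      2 ≤ (γ.filter (v' ∈ ·)).card ∨ (γ.filter (v' ∈ ·)).card = 0) :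
    ∃ n c, Cyc γ n c := by
  obtain ⟨e0, he0⟩ := hne
  have hex : ∃ p, IsPathIn γ 1 p := by
    induction e0 using Sym2.ind with
    | h a b =>
      have hab : a ≠ b := fun h => hd _ he0 (Sym2.mk_isDiag_iff.2 h)
      refine ⟨fun i => if i = 0 then a else b, fun i hi j hj e => ?_, fun i hi => ?_⟩
      · simp only [Set.mem_Iic] at hi hj
        interval_cases i <;> interval_cases j <;> simp_all [eq_comm]
      · interval_cases i; simpa using he0
  have hbd : ∀ n, (∃ p, IsPathIn γ n p) → n < Fintype.card V := by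
    rintro n ⟨p, hp, -⟩
    have := Finset.card_le_card_of_injOn (s := Finset.range (n + 1)) (t := (univ : Finset V)) p
      (fun i _ => Finset.mem_univ _) (hp.mono fun i hi => by simp at hi ⊢; omega)
    simp at this; omega
  set N := Nat.findGreatest (fun n => ∃ p, IsPathIn γ n p) (Fintype.card V)
  obtain ⟨p, hp, hpe⟩ : ∃ p, IsPathIn γ N p :=
    Nat.findGreatest_spec (P := fun n => ∃ p, IsPathIn γ n p) (hbd 1 hex).le hex
  have hN1 : 1 ≤ N := Nat.le_findGreatest (hbd 1 hex).le hex
  have hmax : ∀ q, ¬IsPathIn γ (N + 1) q := fun q hq => by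
    have := Nat.le_findGreatest (P := fun n => ∃ p, IsPathIn γ n p) (hbd _ ⟨q, hq⟩).le ⟨q, hq⟩
    omega
  -- the start of the path or of the reversed path is not a leaf
  have key : ∀ q : ℕ → V, IsPathIn γ N q → 2 ≤ (γ.filter (q 0 ∈ ·)).card → ∃ n c, Cyc γ n c := by
    intro q hq h2
    obtain ⟨b, hb, hb1⟩ := Finset.exists_mem_ne (by omega : 1 < (γ.filter (q 0 ∈ ·)).card) s(q 0, q 1)
    obtain ⟨hbγ, hqb⟩ := Finset.mem_filter.1 hb
    obtain ⟨x, hx, rfl⟩ := mem_mk_other hqb (hd b hbγ)
    by_cases hxp : ∃ i ≤ N, q i = x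
    · obtain ⟨i, hi, rfl⟩ := hxp
      have hi2 : 2 ≤ i := by
        rcases i with _ | _ | i
        · exact absurd rfl hx
        · exact absurd Sym2.eq_swap hb1
        · omega
      exact ⟨i, _, cyc_of_closed q hi2 (hq.1.mono fun j hj => by simp at hj ⊢; omega)
        (fun j hj => hq.2 j (by omega)) hbγ⟩
    · push Not at hxp
      refine absurd ?_ (hmax fun j => if j = 0 then x else q (j - 1))
      refine ⟨fun j hj l hl e => ?_, fun j hj => ?_⟩
      · simp only [Set.mem_Iic] at hj hl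
        rcases j with _ | j <;> rcases l with _ | l <;> simp at e
        · rfl
        · exact absurd e.symm (hxp l (by omega))
        · exact absurd e (hxp j (by omega))
        · rw [hq.1 (by simp; omega) (by simp; omega) e]
      · rcases j with _ | j
        · simpa using hbγ
        · simpa using hq.2 j (by omega)
  have hrev : IsPathIn γ N fun i => p (N - i) := by
    refine ⟨fun i hi j hj e => ?_, fun i hi => ?_⟩
    · have h1 := hp (show N - i ∈ Set.Iic N by simp) (show N - j ∈ Set.Iic N by simp) e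
      simp only [Set.mem_Iic] at hi hj
      omega
    · have := hpe (N - (i + 1)) (by omega)
      rw [show N - (i + 1) + 1 = N - i by omega, Sym2.eq_swap] at this
      exact this
  have hne0 : p 0 ≠ p N := fun e => by
    have := hp (show (0 : ℕ) ∈ Set.Iic N by simp) (show N ∈ Set.Iic N by simp) e
    omega
  have hpos : ∀ v, (∃ b ∈ γ, v ∈ b) → (γ.filter (v ∈ ·)).card ≠ 0 := fun v ⟨b, hb, hv⟩ =>
    Finset.card_ne_zero.2 ⟨b, Finset.mem_filter.2 ⟨hb, hv⟩⟩
  rcases hleaf _ _ hne0 with h | h | h | h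
  · exact key p ⟨hp, hpe⟩ h
  · exact absurd h (hpos _ ⟨_, hpe 0 (by omega), by simp⟩)
  · exact key _ hrev (by simpa using h)
  · exact absurd h (hpos _ ⟨_, hpe (N - 1) (by omega), by
      rw [show N - 1 + 1 = N by omega]; simp⟩)

/-- A shortest cycle has no chord. -/
theorem exists_chordless {γ : Finset (Sym2 V)} (hd : ∀ b ∈ γ, ¬b.IsDiag)
    (h : ∃ n c, Cyc γ n c) :
    ∃ n c, Cyc γ n c ∧ ∀ b ∈ γ, ∀ k l, c k ∈ b → c l ∈ b → k ≠ l → b ∈ cedges c := by
  obtain ⟨n, ⟨c, hc⟩, hmin⟩ : ∃ n, (∃ c, Cyc γ n c) ∧ ∀ m < n, ¬∃ c, Cyc γ m c :=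
    ⟨Nat.find h, Nat.find_spec h, fun m hm => Nat.find_min h hm⟩
  refine ⟨_, c, hc, ?_⟩
  suffices ∀ b ∈ γ, ∀ k l : Fin (n + 1), k.val < l.val → c k ∈ b → c l ∈ b → b ∈ cedges c by
    intro b hb k l hk hl hkl
    rcases lt_or_gt_of_ne (fun e => hkl (Fin.ext e) : k.val ≠ l.val) with h' | h'
    · exact this b hb k l h' hk hl
    · exact this b hb l k h' hl hk
  intro b hb k l hkl hk hl
  have hbkl : b = s(c k, c l) :=
    (Sym2.mem_and_mem_iff fun e => by have := congrArg Fin.val (hc.inj e); omega).1 ⟨hk, hl⟩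
  by_contra hnc
  set p : ℕ → V := fun i => c ((k.val + i : ℕ) : Fin (n + 1)) with hp
  have hgap : 2 ≤ l.val - k.val ∧ l.val - k.val < n := by
    constructor
    · by_contra hlt
      refine hnc (Finset.mem_image.2 ⟨k, Finset.mem_univ _, ?_⟩)
      have e : k + 1 = l := Fin.ext (by rw [Fin.val_add_one_of_lt (by rw [Fin.lt_def, Fin.val_last]; omega)]; omega)
      rw [hbkl, e]
    · by_contra hge
      have hk0 : k = 0 := Fin.ext (by rw [Fin.val_zero]; omega)
      have hl0 : l = Fin.last n := Fin.ext (by simp; omega)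
      refine hnc (Finset.mem_image.2 ⟨l, Finset.mem_univ _, ?_⟩)
      rw [hbkl, hl0, hk0, Fin.last_add_one, Sym2.eq_swap]
  have hcast : ∀ i, k.val + i < n + 1 → ((k.val + i : ℕ) : Fin (n + 1)).val = k.val + i :=
    fun i hi => by rw [Fin.val_natCast, Nat.mod_eq_of_lt hi]
  refine hmin (l.val - k.val) (by omega)
    ⟨_, cyc_of_closed p hgap.1 (fun i hi j hj e => ?_) (fun i hi => ?_) ?_⟩
  · simp only [Set.mem_Iic] at hi hj
    have := congrArg Fin.val (hc.inj e)
    rw [hcast i (by omega), hcast j (by omega)] at this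
    omega
  · have := hc.mem ((k.val + i : ℕ) : Fin (n + 1))
    simpa [hp, Nat.cast_add, add_assoc] using this
  · rw [hbkl] at hb
    simp only [hp, add_zero, Fin.cast_val_eq_self, show k.val + (l.val - k.val) = l.val by omega]
    rw [Sym2.eq_swap]
    exact hb

/-- Cycles of a bipartite graph are even. -/
theorem Cyc.even {γ : Finset (Sym2 V)} {n : ℕ} {c : Fin (n + 1) → V} (hc : Cyc γ n c)
    (col : V → Bool) (hcol : ∀ u v, s(u, v) ∈ γ → col u ≠ col v) : ∃ r, n + 1 = 2 * r := by
  have h : ∀ i : ℕ, col (c (i : Fin (n + 1))) = xor (col (c 0)) (decide (i % 2 = 1)) := by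
    intro i
    induction i with
    | zero => simp
    | succ i ih =>
      have := hcol _ _ (hc.mem (i : Fin (n + 1)))
      rw [ih] at this
      push_cast
      rcases Nat.mod_two_eq_zero_or_one i with h2 | h2 <;>
        rw [show (i + 1) % 2 = 1 - i % 2 by omega, h2] <;> rw [h2] at this <;>
        revert this <;> cases col (c 0) <;> cases col (c ((i : Fin (n + 1)) + 1)) <;> simp
  have := h (n + 1)
  rw [Fin.natCast_self] at this
  refine ⟨(n + 1) / 2, ?_⟩
  rcases Nat.mod_two_eq_zero_or_one (n + 1) with h2 | h2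
  · omega
  · rw [h2] at this; simp at this

end P050
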